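import Vale.Agent.P144Z.R7.Sums
import Vale.Agent.P144Z.RN.Basic
import Vale.Agent.P144Z.R3.Main

/-! The carried terms of the bulk flow are small. -/

namespace Vale.Agent.P144Z

open Finset

theorem R6.anch_car : ∃ C : ℝ, 1 ≤ C ∧ ∀ L : ℕ, 8 ≤ L → ∀ (q : Par) (η : ℝ), Bulk L q η →
    ∀ (M : ℕ) [NeZero M], 16 * (q.R + 1) ≤ M → ∀ j, 16 * sc L j ≤ M →
    Anch (sc L j) L (fun X => (geo0 M).pn (sc L j) (hb L j) 1 X (((geo0 M).flow L q 0 j).car X))
      (C * Real.exp L * η * th L ^ j) := by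
  obtain ⟨C, hC, H⟩ := Geo.pn_local
  refine ⟨9 * C, by linarith, fun L hL q η ⟨ν, ζ, hB⟩ M _ hR j hj => ?_⟩
  obtain ⟨h1, h2⟩ := hB j
  obtain ⟨hv, -⟩ := h2 M hR hj
  have hℓ : 8 ≤ sc L j := Nat.le_mul_of_pos_right 8 (pow_pos (by omega) j)
  have hh : 0 < hb L j := by
    have : (0 : ℝ) < L := by exact_mod_cast (by omega : 0 < L)
    unfold hb; positivity
  generalize sc L j = ℓ at *
  generalize hb L j = h at *
  have hℓ1 : 1 ≤ ℓ := by omega
  have l0 : (0 : ℝ) < ℓ := by exact_mod_cast hℓ1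
  have hb0 : 0 ≤ C * (η * th L ^ j) / ℓ ^ 2 :=
    div_nonneg (mul_nonneg (by linarith) (le_trans (by positivity) h1)) (by positivity)
  refine R7.anch_mono (R7.anch_star hℓ (Nat.cast_nonneg L) hb0 fun X => ?_) (fun _ => le_rfl)
    (le_of_eq (by field_simp))
  have e : ((geo0 M).flow L q 0 j).car X = ∑ x ∈ univ.filter (fun x => star x = X),
      ((geo0 M).flow L q 0 j).v x := by
    rw [Geo.St.car, add_eq_left]
    exact sum_eq_zero fun k _ => k.elim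
  rw [e]
  refine (RN.pn_sum hℓ1 hh one_pos _ _).trans (sum_le_sum fun x hx => ?_)
  obtain ⟨a₁, a₂, -⟩ := H (geo0 M) (fun _ => Or.inl rfl) ℓ h 1 hℓ (by change 4 * ℓ ≤ M; omega) hh
    one_pos x fun f _ => by simp [flux, geo0]
  rw [hv, ← (mem_filter.1 hx).2]
  refine (RN.pn_add hℓ1 hh one_pos _ _).trans ?_
  rw [RN.pn_smul hℓ1 hh one_pos, RN.pn_smul hℓ1 hh one_pos]
  refine (add_le_add (mul_le_mul_of_nonneg_left a₁ (abs_nonneg _))
    (mul_le_mul_of_nonneg_left a₂ (abs_nonneg _))).trans ?_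
  calc _ = C * (h ^ 2 * (ℓ * |ν j| + |ζ j|)) / ℓ ^ 2 := by field_simp
    _ ≤ _ := div_le_div_of_nonneg_right (mul_le_mul_of_nonneg_left h1 (by linarith))
      (by positivity)

end Vale.Agent.P144Z
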