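import Vale.Agent.P144Z.R6.Tr
import Vale.Agent.P144Z.RN.Basic

/-!
The norms are preserved by the monomial identifications.
-/

namespace Vale.Agent.P144Z

open Finset Matrix R6

set_option linter.unusedSectionVars false

namespace FMap

variable {g g' : Geo} {m : FMap g g'}

theorem ex_eq_sum (δ : Tor g.M × Fin 4 → ℝ) : g.ex δ = ∑ s, δ s • g.e1 s.1 s.2 := by
  conv_lhs => rw [← Finset.univ_sum_single δ]
  rw [RN.ex_sum]
  exact sum_congr rfl fun s _ => by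
    rw [Geo.e1, ← RN.ex_single, ← RN.ex_smul, ← Pi.single_smul, smul_eq_mul, mul_one]

variable (m) in
/-- The push-forward of smearing functions. -/
noncomputable def push (δ : Tor g.M × Fin 4 → ℝ) : Tor g'.M × Fin 4 → ℝ :=
  ∑ s, (δ s * (m.ε s.1 * m.y.σ s.2)) • Pi.single (m.φ s.1, m.y.π s.2) 1

theorem f_ex (δ : Tor g.M × Fin 4 → ℝ) : m.f (g.ex δ) = g'.ex (m.push δ) := by
  rw [ex_eq_sum, map_sum, push, RN.ex_sum]
  exact sum_congr rfl fun s _ => by rw [map_smul, f_e1, smul_smul, RN.ex_smul, RN.ex_single]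

theorem push_dot (δ : Tor g.M × Fin 4 → ℝ) (u : Tor g'.M × Fin 4 → ℝ) :
    m.push δ ⬝ᵥ u = δ ⬝ᵥ m.pull u := by
  rw [push, sum_dotProduct, dotProduct]
  exact sum_congr rfl fun s _ => by
    rw [smul_dotProduct, single_one_dotProduct, pull, smul_eq_mul, mul_assoc]

theorem push_supp {δ : Tor g.M × Fin 4 → ℝ} {z : g.P} {ℓ : ℕ} (hz : m.dep ℓ z)
    (h : SuppIn δ z ℓ) : SuppIn (m.push δ) (m.φ z) ℓ := fun t ht => by
  rw [push, Finset.sum_apply]
  refine sum_eq_zero fun s _ => ?_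
  by_cases h1 : ℓ < tdist s.1 z
  · simp [h s h1]
  · rw [Pi.smul_apply, Pi.single_eq_of_ne, smul_zero]
    rintro rfl
    rw [m.iso (m.mono hz (by omega)) (dep0 hz)] at ht
    exact h1 ht

theorem sum_ball {r : ℕ} {z : g.P} (hz : m.dep r z) (F : Tor g'.M → Fin 4 → ℝ) :
    ∑ x ∈ P144Z.ball (m.φ z) r, ∑ a, F x a =
      ∑ x ∈ P144Z.ball z r, ∑ a, F (m.φ x) (m.y.π a) := by
  rw [← Iso.image_ball hz, sum_image (Iso.in_ball (m := 0) hz le_rfl).injOn]
  exact sum_congr rfl fun x _ => (Equiv.sum_comp m.y.π _).symm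

theorem Dm_ball {M : ℕ} [NeZero M] (A : Gauge M) (w : Tor M × Fin 4 → ℝ) (s : Tor M × Fin 4) :
    (Dm A *ᵥ w) s = ∑ x ∈ P144Z.ball s.1 1, ∑ a, Dm A s (x, a) * w (x, a) := by
  rw [mulVec, dotProduct, Fintype.sum_prod_type]
  refine (sum_subset (subset_univ _) fun x _ hx => sum_eq_zero fun a _ => ?_).symm
  rw [not_not.1 fun h => hx (mem_ball.2 ((tdist_comm _ _).le.trans (C.Dm_near A h))), zero_mul]

theorem Dm_pull (u : Tor g'.M × Fin 4 → ℝ) (k : ℕ) : ∀ s : Tor g.M × Fin 4, m.dep k s.1 →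
    ((Dm g.A ^ k) *ᵥ m.pull u) s = m.y.o ^ k * m.pull ((Dm g'.A ^ k) *ᵥ u) s := by
  induction k with
  | zero => simp
  | succ k ih =>
    intro s hs
    rw [pow_succ', pow_succ' (Dm g'.A), ← mulVec_mulVec, ← mulVec_mulVec, Dm_ball, pull, Dm_ball,
      sum_ball (Iso.le hs (by omega)), mul_sum, mul_sum]
    refine sum_congr rfl fun x hx => ?_
    have h1 : m.dep k x := Iso.in_ball hs (by omega) x hx
    rw [mul_sum, mul_sum]
    refine sum_congr rfl fun a _ => ?_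
    rw [ih _ h1, Dm_map (dep0 hs) (dep0 h1), pull, pow_succ]
    have := m.εε s.1
    have := m.σσ s.2
    have := m.oo
    grind

theorem hsq_pull {z : g.P} {r : ℕ} (hz : m.dep (r + 4) z) (ρ : ℝ) (u : Tor g'.M × Fin 4 → ℝ) :
    hsq g.A ρ (P144Z.ball z r) (m.pull u) = hsq g'.A ρ (P144Z.ball (m.φ z) r) u := by
  refine sum_congr rfl fun k hk => ?_
  have := mem_range.1 hk
  rw [l2sq, l2sq, sum_ball (Iso.le hz (by omega))]
  congr 1
  refine sum_congr rfl fun x hx => sum_congr rfl fun a _ => ?_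
  rw [Dm_pull u k _ (Iso.in_ball hz (by omega) x hx), pull, mul_pow, mul_pow, mul_pow, ← pow_mul,
    mul_comm k, pow_mul, sq m.y.o, sq (m.ε _), sq (m.y.σ _), m.oo, m.εε, m.σσ]
  simp

/-- The identification does not increase the norm. -/
theorem pn_le [IsEmpty g.K] (ho : m.y.o = 1) {ℓ : ℕ} {h β β' : ℝ} (hℓ : 1 ≤ ℓ) (hh : 0 < h)
    (hβ : 0 < β) (hβ' : 0 < β') {X : Finset g.P} (hX : m.In (2 * ℓ + 4) X) {F : g.E}
    (hF : F ∈ g.el X) : g'.pn ℓ h β' (X.image m.φ) (m.Φ F) ≤ g.pn ℓ h β X F := by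
  have h1 := mem_evLoc.1 (m.Φ_el hF)
  unfold Geo.pn
  rw [val_Φ, ho, monG_apply, rv_one] at h1 ⊢
  refine nrm_map (RN.adm hℓ hh hβ X) (RN.adm hℓ hh hβ' _) _ (fun r hr p hp => ?_) hF h1
  rcases RN.cons_cases hp with ⟨z, hz, δ, c, hs, hc, hd, rfl⟩ | ⟨k, -⟩
  · rw [f_ex]
    refine RN.In.fld hr (mem_image_of_mem _ hz) (push_supp (Iso.le (hX z hz) (by omega)) hs) hc
      fun u => ?_
    rw [push_dot, ← hsq_pull (hX z hz)]
    exact hd _
  · exact isEmptyElim k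

/-- Killing the sources and coming back. -/
theorem Φ_Φ {m' : FMap g' g} (hy : m.y = syId) (hy' : m'.y = syId) (hκ : ∀ k, m.κ k = none)
    (hφ : ∀ x, m'.φ (m.φ x) = x) (hε : ∀ x, m'.ε (m.φ x) = m.ε x) (F : g.E) :
    m'.Φ (m.Φ F) = g.noB F := by
  refine Ev.val_injective ?_
  have e : m'.f ∘ₗ m.f = res (Set.range Sum.inl) := (Pi.basisFun ℝ g.S).ext fun s => by
    rw [Pi.basisFun_apply, LinearMap.comp_apply]
    rcases s with s | k
    · rw [A1.res_single (Set.mem_range_self s), m.f_e1, map_smul, m'.f_e1, hφ, hε, hy, hy',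
        smul_smul]
      simp [syId, m.εε]
    · rw [m.f_none (hκ _), map_zero]
      exact (RN.prF_src g k).symm
  rw [val_Φ, val_Φ, hy, hy', Geo.noB, val_evMap, ← e]
  change monG 1 _ (monG 1 _ _) = _
  rw [monG_apply, monG_apply, rv_one, rv_one, ← AlgHom.comp_apply, ExteriorAlgebra.map_comp_map]

end FMap

end Vale.Agent.P144Z
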