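import Vale.Agent.P144Z.R6.Sym
import Vale.Agent.P144Z.R6.Pn
import Vale.Agent.P144Z.R6.Car

/-!
The bulk part of every flow is the flow without fluxes and sources.
-/

namespace Vale.Agent.P144Z

open Finset Matrix R6

set_option linter.unusedSectionVars false

theorem R6.pn_noB_le {g : Geo} {L : ℕ} {q : Par} (hL : 8 ≤ L) (hg : g.Ok) (hq : q.Ok)
    (hR : 16 * (q.R + 1) ≤ g.M) (j : ℕ) {h : ℝ} (hh : 0 < h) {X : Finset g.P} {x : g.P}
    (hx : x ∈ X) (hX : g.nd (sc L j) X) :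
    g.pn (sc L j) h 1 X (g.noB ((g.flow L q 0 j).K X)) ≤
        (geo0 g.M).pn (sc L j) h 1 X (((geo0 g.M).flow L q 0 j).K X) ∧
      g.pn (sc L j) h 1 X (g.noB ((g.flow L q 0 j).car X)) ≤
        (geo0 g.M).pn (sc L j) h 1 X (((geo0 g.M).flow L q 0 j).car X) := by
  have h8 := eight_le_sc (by omega : 1 ≤ L) j
  have hT : 1 ≤ 2 * stein X + 3 * sc L j := by omega
  obtain ⟨m, hm, hA⟩ := exists_tr (g' := geo0 g.M) (q := q) (c := x) (c' := x) hg (ok_geo0 _)
    hq.pot (by omega) (show _ ≤ g.M by omega)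
    ⟨hX.2, hX.2, fun f hf => (flux_one _).trans (hX.1 x hx f hf).symm⟩ hT (srcs_none _ _ _ _)
  let m' := FMap.ball (g := geo0 g.M) (g' := g) syId x x hX.2 hX.2 hT m.sε
    (gauge_stp (g := geo0 g.M) (g' := g) hX.2 hX.2 hT fun (y : g.P) i hy hy' => by
      have h1 : (1 : ℝ) = m.ε y * m.ε (y + uv g.M i) * g.A (y, i) := hA y i hy hy'
      have h2 := m.εε y
      have h3 := m.εε (y + uv g.M i)
      change g.A (shf x x y, i) = m.ε y * m.ε (y + uv g.M i) * 1
      rw [shf_self]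
      grind) (fun k => isEmptyElim k) (fun k => isEmptyElim k) fun k => isEmptyElim k
  have e1 : X.image m.φ = X := hm.hφ ▸ image_shf_self x X
  have e2 : Finset.image m'.φ X = X := image_shf_self x X
  have e3 : ∀ F, m'.Φ (m.Φ F) = g.noB F := FMap.Φ_Φ hm.hy rfl (fun k => by rw [hm.hκ])
    (fun y => by rw [hm.hφ]; exact (shf_self x _).trans (shf_self x y))
    fun y => by rw [hm.hφ]; exact congrArg m.ε (shf_self x y)
  have h0 : tdist x x = 0 := tdist_self x
  have h1 := hm.flow (L := L) (by omega) 0 j (by simp)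
  have h2 : m.In (2 * sc L j) X := hm.In hx (by omega)
  have h3 : m'.In (2 * sc L j + 4) X := fun u hu => by
    have := tdist_le_stein hu hx
    change tdist (M := g.M) u x + _ ≤ _
    omega
  have h4 : ∀ F ∈ g.el X, g.pn (sc L j) h 1 X (g.noB F) ≤ (geo0 g.M).pn (sc L j) h 1 X (m.Φ F) := by
    intro F hF
    have := FMap.pn_le (m := m') rfl (by omega) hh one_pos one_pos h3 (e1 ▸ m.Φ_el hF)
    rwa [e2, e3] at this
  have h5 := h1.K X h2
  have h6 := h1.car (by omega) h2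
  exact ⟨(h4 _ (h1.loc.K X)).trans_eq (congrArg _ (h5.symm.trans (congrArg _ e1))),
    (h4 _ (h1.loc.car X)).trans_eq (congrArg _ (h6.symm.trans (congrArg _ e1)))⟩

namespace Geo

/-- The bulk part of every flow is small. -/
theorem ag_bf : ∃ C : ℝ, 1 ≤ C ∧ ∀ L : ℕ, 8 ≤ L → ∀ (q : Par) (η : ℝ), q.Ok → Bulk L q η →
    ∀ g : Geo, g.Ok → 16 * (q.R + 1) ≤ g.M → ∀ j, 16 * sc L j ≤ g.M →
      Anch (sc L j) L (g.bf (sc L j) (hb L j) (g.flow L q 0 j))
        (C * Real.exp L * η * th L ^ j) := by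
  obtain ⟨C, hC, h⟩ := anch_car
  refine ⟨C + 1, by linarith, fun L hL q η hq hB g hg hR j hM z => ?_⟩
  have h1 := h L hL q η hB g.M hR j hM z
  obtain ⟨ν, ζ, hB⟩ := hB
  have h2 := ((hB j).2 g.M hR hM).2 z
  have hh : 0 < hb L j := by
    have : (0 : ℝ) < L := by exact_mod_cast (by omega : 0 < L)
    rw [hb]
    positivity
  have h3 : 0 ≤ η * th L ^ j := le_trans (by positivity) (hB j).1
  have h4 : η * th L ^ j ≤ Real.exp L * (η * th L ^ j) :=
    le_mul_of_one_le_left h3 (Real.one_le_exp (Nat.cast_nonneg L))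
  refine le_trans ?_ ((add_le_add h2 h1).trans (by linarith))
  rw [← sum_add_distrib]
  refine sum_le_sum fun X hX => ?_
  obtain ⟨x, hx, -⟩ := (mem_filter.1 hX).2
  rw [← add_mul]
  refine mul_le_mul_of_nonneg_right ?_ (Real.exp_nonneg _)
  unfold bf
  split_ifs with h5
  · exact add_le_add (pn_noB_le hL hg hq hR j hh hx h5).1 (pn_noB_le hL hg hq hR j hh hx h5).2
  · exact add_nonneg (RN.pn_nonneg (g := geo0 g.M) _) (RN.pn_nonneg (g := geo0 g.M) _)

end Geo

end Vale.Agent.P144Z
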