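import Vale.Agent.P144Z.R6.Loc

/-!
Two geometries that agree on a region: one step of the flow commutes with the identification.
-/

namespace Vale.Agent.P144Z

open Finset Matrix R6

set_option linter.unusedSectionVars false

theorem R6.stein_empty {M : ℕ} : stein (∅ : Finset (Tor M)) = 0 :=
  Nat.eq_zero_of_le_zero (Nat.sInf_le ⟨∅, Subset.rfl, fun _ h => absurd h (notMem_empty _), by simp⟩)

theorem R6.sum_opt {K K' E : Type} [Fintype K] [Fintype K'] [AddCommMonoid E] (κ : K → Option K')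
    (inj : ∀ {k k₂ k'}, κ k = some k' → κ k₂ = some k' → k = k₂) (f : K → E) (f' : K' → E)
    (h0 : ∀ k, κ k = none → f k = 0) (h1 : ∀ k k', κ k = some k' → f k = f' k')
    (h2 : ∀ k', (∀ k, κ k ≠ some k') → f' k' = 0) : ∑ k, f k = ∑ k', f' k' := by
  classical
  have e1 : ∀ k, f k = ∑ k', if κ k = some k' then f' k' else 0 := by
    intro k
    cases h : κ k with
    | none => simp [h0 k h]
    | some k' => simp [h1 k k' h]
  have e2 : ∀ k', f' k' = ∑ k, if κ k = some k' then f' k' else 0 := by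
    intro k'
    by_cases h : ∃ k, κ k = some k'
    · obtain ⟨k, hk⟩ := h
      rw [Finset.sum_eq_single k (fun k₂ _ hne => if_neg fun h₂ => hne (inj h₂ hk)) (by simp),
        if_pos hk]
    · push Not at h
      simp [h, h2 k' h]
  rw [sum_congr rfl fun k _ => e1 k, sum_comm]
  exact sum_congr rfl fun k' _ => (e2 k').symm

/-- A local isometry of tori; `dep n x` says that `x` lies at depth `n` in the region. -/
structure Iso (M M' : ℕ) where
  dep : ℕ → Tor M → Prop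
  φ : Tor M → Tor M'
  mono : ∀ {n m x y}, dep n x → tdist y x + m ≤ n → dep m y
  iso : ∀ {x y}, dep 0 x → dep 0 y → tdist (φ x) (φ y) = tdist x y
  onto : ∀ {n x y'}, dep n x → tdist y' (φ x) ≤ n → ∃ y, tdist y x ≤ n ∧ φ y = y'
  star : ∀ {x}, dep 1 x → (star x).image φ = star (φ x)

namespace Iso

variable {M M' : ℕ} [NeZero M] [NeZero M'] (a : Iso M M')

/-- All points of `X` lie at depth `n`. -/
def In (n : ℕ) (X : Finset (Tor M)) : Prop := ∀ x ∈ X, a.dep n x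

variable {a}

theorem le {n m : ℕ} {x : Tor M} (h : a.dep n x) (hm : m ≤ n) : a.dep m x :=
  a.mono h (by rw [tdist_self]; omega)

theorem In.le {n m : ℕ} {X : Finset (Tor M)} (h : a.In n X) (hm : m ≤ n) : a.In m X :=
  fun x hx => Iso.le (h x hx) hm

theorem In.sub {n : ℕ} {X Y : Finset (Tor M)} (h : a.In n X) (hY : Y ⊆ X) : a.In n Y :=
  fun x hx => h x (hY hx)

theorem in_ball {n m r : ℕ} {x : Tor M} (h : a.dep n x) (hm : r + m ≤ n) : a.In m (ball x r) :=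
  fun _ hy => a.mono h (by have := mem_ball.1 hy; omega)

theorem tdist_star {x y : Tor M} (h : y ∈ P144Z.star x) : tdist y x ≤ 1 := by
  have h2 : ∀ i, tdist (x - uv M i) x ≤ 1 := fun i => by
    have := tdist_uv (x - uv M i) i
    rwa [sub_add_cancel, tdist_comm] at this
  simp only [P144Z.star, mem_insert, mem_singleton] at h
  rcases h with rfl | rfl | rfl | rfl | rfl
  · rw [tdist_self]; omega
  exacts [tdist_uv _ _, h2 _, tdist_uv _ _, h2 _]

theorem in_star {n : ℕ} {x : Tor M} (h : a.dep (n + 1) x) : a.In n (P144Z.star x) :=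
  fun _ hy => a.mono h (by have := tdist_star hy; omega)

theorem in_plus {n : ℕ} {X : Finset (Tor M)} (h : a.In (n + 1) X) : a.In n (plus X) := by
  intro y hy
  obtain ⟨x, hx, hy⟩ := mem_biUnion.1 hy
  exact in_star (h x hx) y hy

theorem inj {x y : Tor M} (hx : a.dep 0 x) (hy : a.dep 0 y) (h : a.φ x = a.φ y) : x = y :=
  tdist_eq_zero (by rw [← a.iso hx hy, h, tdist_self])

theorem In.injOn {X : Finset (Tor M)} (h : a.In 0 X) : Set.InjOn a.φ X :=
  fun x hx y hy => inj (h x hx) (h y hy)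

theorem mem_image_iff {X : Finset (Tor M)} (h : a.In 0 X) {x : Tor M} (hx : a.dep 0 x) :
    a.φ x ∈ X.image a.φ ↔ x ∈ X := by
  refine ⟨fun h1 => ?_, mem_image_of_mem _⟩
  obtain ⟨y, hy, e⟩ := mem_image.1 h1
  exact inj (h y hy) hx e ▸ hy

theorem image_inj {X Y : Finset (Tor M)} (hX : a.In 0 X) (hY : a.In 0 Y)
    (h : X.image a.φ = Y.image a.φ) : X = Y := by
  ext x
  exact ⟨fun hx => (mem_image_iff hY (hX x hx)).1 (h ▸ mem_image_of_mem _ hx),
    fun hx => (mem_image_iff hX (hY x hx)).1 (h ▸ mem_image_of_mem _ hx)⟩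

theorem image_ball {r : ℕ} {x : Tor M} (h : a.dep r x) :
    (ball x r).image a.φ = ball (a.φ x) r := by
  ext y'
  rw [mem_image, mem_ball]
  constructor
  · rintro ⟨y, hy, rfl⟩
    rw [a.iso (in_ball (m := 0) h le_rfl y hy) (le h (Nat.zero_le _))]
    exact mem_ball.1 hy
  · intro h1
    obtain ⟨y, hy, e⟩ := a.onto h h1
    exact ⟨y, mem_ball.2 hy, e⟩

theorem image_plus {X : Finset (Tor M)} (h : a.In 1 X) :
    (plus X).image a.φ = plus (X.image a.φ) := by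
  rw [plus, plus, biUnion_image, image_biUnion]
  exact biUnion_congr rfl fun x hx => a.star (h x hx)

theorem stein_image {r : ℕ} {X : Finset (Tor M)} {x : Tor M} (hx : x ∈ X) (h : a.dep r x)
    (hr : stein X ≤ r) : stein (X.image a.φ) = stein X :=
  stein_iso a.φ x r (fun _ _ hy hz => a.iso (a.mono h (by omega)) (a.mono h (by omega)))
    (fun _ hy => a.onto h hy) hx (by rw [tdist_self]; omega)

theorem small_iff {ℓ : ℕ} {U : Finset (Tor M)} (h : a.In ℓ U) :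
    stein (U.image a.φ) ≤ ℓ ↔ stein U ≤ ℓ := by
  classical
  rcases U.eq_empty_or_nonempty with rfl | ⟨x, hx⟩
  · simp [stein_empty]
  refine ⟨fun h1 => ?_, fun h1 => (stein_image hx (h x hx) h1).le.trans h1⟩
  have hd := h x hx
  have h0 : ∀ y, tdist y x ≤ ℓ → a.dep 0 y := fun y hy => a.mono hd (by omega)
  let ψ : Tor M' → Tor M := fun y' =>
    if e : ∃ y, tdist y x ≤ ℓ ∧ a.φ y = y' then e.choose else x
  have p1 : ∀ y', tdist y' (a.φ x) ≤ ℓ → tdist (ψ y') x ≤ ℓ ∧ a.φ (ψ y') = y' := fun y' hy => by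
    have e := a.onto hd hy
    simp only [ψ, dif_pos e]
    exact e.choose_spec
  have p0 : ∀ y, tdist y x ≤ ℓ → tdist (a.φ y) (a.φ x) ≤ ℓ := fun y hy => by
    rwa [a.iso (h0 y hy) (le hd (Nat.zero_le _))]
  have p2 : ∀ y, tdist y x ≤ ℓ → ψ (a.φ y) = y := fun y hy =>
    inj (h0 _ (p1 _ (p0 y hy)).1) (h0 y hy) (p1 _ (p0 y hy)).2
  have hx0 : tdist x x ≤ ℓ := by rw [tdist_self]; omega
  have p3 := stein_iso ψ (a.φ x) ℓ (fun y z hy hz => by
      rw [← a.iso (h0 _ (p1 y hy).1) (h0 _ (p1 z hz).1), (p1 y hy).2, (p1 z hz).2])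
    (fun y hy => ⟨a.φ y, p0 y (by rwa [p2 x hx0] at hy), p2 y (by rwa [p2 x hx0] at hy)⟩)
    (mem_image_of_mem a.φ hx) (by rw [tdist_self]; omega)
  have p4 : (U.image a.φ).image ψ = U := by
    rw [image_image]
    refine (image_congr fun y hy => ?_).trans image_id
    refine p2 y ?_
    rw [← a.iso (le (h y hy) (Nat.zero_le _)) (le hd (Nat.zero_le _))]
    exact (tdist_le_stein (mem_image_of_mem _ hy) (mem_image_of_mem _ hx)).trans h1
  rw [p4] at p3
  omega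

theorem exists_image {W : Finset (Tor M)} {U' : Finset (Tor M')} (h : U' ⊆ W.image a.φ) :
    ∃ U ⊆ W, U.image a.φ = U' := subset_image_iff.1 h

/-- Sums over sets. -/
theorem sum_sets {E : Type} [AddCommMonoid E] {W : Finset (Tor M)} (hW : a.In 0 W)
    {p : Finset (Tor M) → Prop} {p' : Finset (Tor M') → Prop} {_ : DecidablePred p}
    {_ : DecidablePred p'} (hp : ∀ U, p U → U ⊆ W) (hp' : ∀ U', p' U' → U' ⊆ W.image a.φ)
    (h : ∀ U ⊆ W, p' (U.image a.φ) ↔ p U) (f' : Finset (Tor M') → E) :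
    ∑ U' ∈ univ.filter p', f' U' = ∑ U ∈ univ.filter p, f' (U.image a.φ) := by
  symm
  refine sum_bij (fun U _ => U.image a.φ) (fun U hU => ?_) (fun U hU V hV e => ?_)
    (fun U' hU' => ?_) fun _ _ => rfl
  · have h1 := (mem_filter.1 hU).2
    exact mem_filter.2 ⟨mem_univ _, (h U (hp U h1)).2 h1⟩
  · exact image_inj (hW.sub (hp U (mem_filter.1 hU).2)) (hW.sub (hp V (mem_filter.1 hV).2)) e
  · have h1 := (mem_filter.1 hU').2
    obtain ⟨U, hU, rfl⟩ := exists_image (hp' U' h1)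
    exact ⟨U, mem_filter.2 ⟨mem_univ _, (h U hU).1 h1⟩, rfl⟩

theorem star_iff {X : Finset (Tor M)} (hX : a.In 0 X) {x : Tor M} (hx : a.dep 1 x) :
    P144Z.star (a.φ x) = X.image a.φ ↔ P144Z.star x = X := by
  rw [← a.star hx]
  exact ⟨image_inj (in_star hx) hX, fun h => by rw [h]⟩

end Iso

/-- Two geometries that agree on a region. -/
structure Agree (g g' : Geo) extends Iso g.M g'.M where
  Φ : g.E →ₗ[ℝ] g'.E
  κ : g.K → Option g'.K
  s : g.K → ℝ
  one : Φ 1 = 1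
  mul : ∀ F G, Φ (F * G) = Φ F * Φ G
  flat : ∀ {r x}, dep (r + 1) x → (Flat g'.A (φ x) r ↔ Flat g.A x r)
  cov : ∀ {ℓ ℓ' U F}, ℓ ≤ ℓ' → (∀ x ∈ U, dep (ℓ' + 3) x) → F ∈ g.el U →
    evG (g'.exM (covP (Dm g'.A) ℓ ℓ')) (Φ F) = Φ (evG (g.exM (covP (Dm g.A) ℓ ℓ')) F)
  noF : ∀ F, g'.noF (Φ F) = Φ (g.noF F)
  O1 : ∀ {x}, dep 1 x → g'.O1 (φ x) = Φ (g.O1 x)
  O2 : ∀ {x}, dep 1 x → g'.O2 (φ x) = Φ (g.O2 x)
  Ext : ∀ {ℓ x F}, dep (ℓ + 1) x → F ∈ g.el (ball x ℓ) → g'.Ext (φ x) (Φ F) = Φ (g.Ext x F)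
  pos : ∀ {k k'}, κ k = some k' → dep 0 (g.src k).y ∧ (g'.src k').y = φ (g.src k).y
  on : ∀ {k k'}, κ k = some k' → (g'.src k').on = (g.src k).on
  kinj : ∀ {k k₂ k'}, κ k = some k' → κ k₂ = some k' → k = k₂
  surj : ∀ {k' x}, dep 0 x → (g'.src k').y = φ x → ∃ k, κ k = some k'
  bE0 : ∀ {k}, κ k = none → Φ (g.bE k) = 0
  bE1 : ∀ {k k'}, κ k = some k' → dep 1 (g.src k).y → Φ (g.bE k) = s k • g'.bE k'
  zt : ∀ {k k' ℓ F}, κ k = some k' → dep (ℓ + 1) (g.src k).y → F ∈ g.el (ball (g.src k).y ℓ) →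
    g'.zt k' (Φ F) = s k * g.zt k F

namespace Agree

variable {g g' : Geo} (a : Agree g g')

/-- The states agree at depth `m`. -/
structure Rel (m : ℕ) (t : g.St) (t' : g'.St) : Prop where
  loc : g.Loc t
  K : ∀ X, a.In m X → t'.K (X.image a.φ) = a.Φ (t.K X)
  v : ∀ x, a.dep m x → t'.v (a.φ x) = a.Φ (t.v x)
  z : ∀ k k', a.κ k = some k' → a.dep m (g.src k).y → t'.z k' = a.s k * t.z k

variable {a}

theorem Rel.le {m n : ℕ} {t : g.St} {t' : g'.St} (h : a.Rel m t t') (hn : m ≤ n) :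
    a.Rel n t t' :=
  ⟨h.loc, fun X hX => h.K X (hX.le hn), fun x hx => h.v x (Iso.le hx hn),
    fun k k' e hk => h.z k k' e (Iso.le hk hn)⟩

theorem mem_src {k : g.K} {k' : g'.K} (e : a.κ k = some k') {U : Finset g.P} (hU : a.In 0 U) :
    (g'.src k').y ∈ U.image a.φ ↔ (g.src k).y ∈ U := by
  rw [(a.pos e).2]
  exact Iso.mem_image_iff hU (a.pos e).1

/-- Sums over sources. -/
theorem sum_src {W : Finset g.P} (hW : a.In 1 W) {p : g.K → Prop} {p' : g'.K → Prop}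
    {_ : DecidablePred p} {_ : DecidablePred p'} (hp : ∀ k, p k → (g.src k).y ∈ W)
    (hp' : ∀ k', p' k' → (g'.src k').y ∈ W.image a.φ)
    (h : ∀ k k', a.κ k = some k' → (g.src k).y ∈ W → (p' k' ↔ p k)) {c : g.K → ℝ} {c' : g'.K → ℝ}
    (hc : ∀ k k', a.κ k = some k' → p k → c' k' = a.s k * c k) :
    ∑ k' ∈ univ.filter p', c' k' • g'.bE k' = a.Φ (∑ k ∈ univ.filter p, c k • g.bE k) := by
  rw [map_sum, sum_filter, sum_filter]
  symm
  refine sum_opt a.κ a.kinj _ _ (fun k e => ?_) (fun k k' e => ?_) fun k' e => ?_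
  · rw [map_smul, a.bE0 e, smul_zero, ite_self]
  · by_cases h1 : p k
    · rw [if_pos h1, if_pos ((h k k' e (hp k h1)).2 h1), map_smul, a.bE1 e (hW _ (hp k h1)),
        hc k k' e h1, smul_smul, mul_comm]
    · rw [if_neg h1, if_neg fun h2 => h1
        ((h k k' e ((mem_src e (hW.le (by omega))).1 (hp' k' h2))).1 h2)]
  · refine if_neg fun h2 => ?_
    obtain ⟨x, hx, e1⟩ := mem_image.1 (hp' k' h2)
    obtain ⟨k, hk⟩ := a.surj (Iso.le (hW x hx) (by omega)) e1.symm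
    exact e k hk

theorem Rel.car {m : ℕ} {t : g.St} {t' : g'.St} (h : a.Rel m t t') (hm : 1 ≤ m) {X : Finset g.P}
    (hX : a.In m X) : t'.car (X.image a.φ) = a.Φ (t.car X) := by
  have h0 : a.In 0 X := hX.le (by omega)
  have h1 : a.In 1 X := hX.le hm
  rw [Geo.St.car, Geo.St.car, map_add]
  congr 1
  · rw [map_sum]
    symm
    refine sum_bij (fun x _ => a.φ x) (fun x hx => ?_) (fun x hx y hy e => ?_) (fun x' hx' => ?_)
      fun x hx => ?_
    · have e := (mem_filter.1 hx).2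
      exact mem_filter.2 ⟨mem_univ _, (Iso.star_iff h0 (h1 x (e ▸ self_mem_star x))).2 e⟩
    · exact Iso.inj (h0 x ((mem_filter.1 hx).2 ▸ self_mem_star x))
        (h0 y ((mem_filter.1 hy).2 ▸ self_mem_star y)) e
    · have e := (mem_filter.1 hx').2
      obtain ⟨x, hx, rfl⟩ := mem_image.1 (e ▸ self_mem_star x')
      exact ⟨x, mem_filter.2 ⟨mem_univ _, (Iso.star_iff h0 (h1 x hx)).1 e⟩, rfl⟩
    · exact (h.v x (hX x ((mem_filter.1 hx).2 ▸ self_mem_star x))).symm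
  · refine sum_src h1 (fun k e => by rw [← e]; exact self_mem_star _)
      (fun k e => by rw [← e]; exact self_mem_star _)
      (fun k k' e hk => ?_) fun k k' e hk => h.z k k' e (hX _ (hk ▸ self_mem_star _))
    rw [(a.pos e).2]
    exact Iso.star_iff h0 (h1 _ hk)

theorem Rel.H {m : ℕ} {t : g.St} {t' : g'.St} (h : a.Rel m t t') (hm : 1 ≤ m) {X : Finset g.P}
    (hX : a.In m X) : t'.H (X.image a.φ) = a.Φ (t.H X) := by
  rw [Geo.St.H, Geo.St.H, map_add, h.K X hX, h.car hm hX]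

/-- The localized logarithm for any pair of corresponding covariances. -/
theorem Rel.cl {m : ℕ} {t : g.St} {t' : g'.St} (h : a.Rel m t t') (hm : 1 ≤ m) {U : Finset g.P}
    (hU : a.In m U) {C : Matrix g.S g.S ℝ} {C' : Matrix g'.S g'.S ℝ}
    (hC : ∀ F ∈ g.el U, evG C' (a.Φ F) = a.Φ (evG C F)) :
    Cl (evG C') t'.H (U.image a.φ) = a.Φ (Cl (evG C) t.H U) :=
  Cl_hom _ _ a.Φ a.one a.mul a.Φ a.one a.mul a.φ U (hU.le (Nat.zero_le _)).injOn (g.el U) hC _ _
    (fun X hX => Geo.el_mono hX (h.loc.H X)) fun _ hX => h.H hm (hU.sub hX)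

section step

variable {m ℓ ℓ' : ℕ} {t : g.St} {t' : g'.St}

theorem Rel.intg (h : a.Rel m t t') (hℓ : ℓ ≤ ℓ') (hm : ℓ' + 3 ≤ m) {U : Finset g.P}
    (hU : a.In m U) : g'.intg ℓ ℓ' t' (U.image a.φ) = a.Φ (g.intg ℓ ℓ' t U) :=
  h.cl (by omega) hU fun _ hF => a.cov hℓ (hU.le hm) hF

theorem Rel.rem (h : a.Rel m t t') (hℓ : ℓ ≤ ℓ') (hm : ℓ' + 3 ≤ m) {U : Finset g.P}
    (hU : a.In m U) : g'.rem ℓ ℓ' t' (U.image a.φ) = a.Φ (g.rem ℓ ℓ' t U) := by
  rw [Geo.rem, Geo.rem, map_sub, map_sub, h.intg hℓ hm hU, a.noF, h.car (by omega) hU]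

theorem Xtr_iff (hℓ : ℓ ≤ ℓ') {U : Finset g.P} (hU : a.In (ℓ' + 1) U) :
    g'.Xtr ℓ ℓ' (U.image a.φ) ↔ g.Xtr ℓ ℓ' U := by
  rw [Geo.Xtr, Geo.Xtr, Iso.small_iff (hU.le (by omega)), forall_mem_image]
  exact and_congr_right fun _ => forall₂_congr fun x hx => a.flat (hU x hx)

theorem tgt_image {U : Finset g.P} (hℓ : 1 ≤ ℓ) (hU : a.In ℓ U) :
    g'.tgt ℓ (U.image a.φ) = (g.tgt ℓ U).image a.φ := by
  unfold Geo.tgt
  by_cases h : stein U ≤ ℓ
  · rw [if_pos h, if_pos ((Iso.small_iff hU).2 h), Iso.image_plus (hU.le hℓ)]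
  · rw [if_neg h, if_neg fun h1 => h ((Iso.small_iff hU).1 h1)]

variable (a) in
/-- The corresponding sources are renormalised at the step `j` in both geometries or in none. -/
def SameJ (j : ℕ) : Prop :=
  ∀ k k', a.κ k = some k' → (g.src k).on = true → (j < g'.J ↔ j < g.J)

theorem XtrB_iff {j : ℕ} (hJ : a.SameJ j) (hℓ : ℓ ≤ ℓ') {U : Finset g.P} (hU : a.In (ℓ' + 1) U)
    {k : g.K} {k' : g'.K} (e : a.κ k = some k') :
    g'.XtrB j ℓ ℓ' (U.image a.φ) k' ↔ g.XtrB j ℓ ℓ' U k := by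
  rw [Geo.XtrB, Geo.XtrB, Xtr_iff hℓ hU, mem_src e (hU.le (Nat.zero_le _)), a.on e]
  exact and_congr_right fun _ => and_congr_right fun _ => and_congr_right fun h => hJ k k' e h

theorem xtr {j : ℕ} (hJ : a.SameJ j) (hℓ : ℓ ≤ ℓ') {U : Finset g.P} (hU : a.In (ℓ' + 1) U)
    {F : g.E} (hF : F ∈ g.el U) :
    g'.xtr j ℓ ℓ' (U.image a.φ) (a.Φ F) = a.Φ (g.xtr j ℓ ℓ' U F) := by
  have h0 : a.In 0 U := hU.le (Nat.zero_le _)
  rw [Geo.xtr, Geo.xtr, map_add]
  congr 1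
  · by_cases h : g.Xtr ℓ ℓ' U
    · rw [if_pos h, if_pos ((Xtr_iff hℓ hU).2 h), map_smul, map_sum, card_image_of_injOn h0.injOn,
        sum_image h0.injOn]
      congr 1
      exact sum_congr rfl fun x hx => a.Ext (Iso.le (hU x hx) (by omega))
        (Geo.el_mono (Geo.subset_ball hx h.1) hF)
    · rw [if_neg h, if_neg fun h1 => h ((Xtr_iff hℓ hU).1 h1), map_zero]
  · exact sum_src (hU.le (by omega)) (fun k h => h.2.1) (fun k h => h.2.1)
      (fun k k' e _ => XtrB_iff hJ hℓ hU e) fun k k' e h =>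
        a.zt e (Iso.le (hU _ h.2.1) (by omega)) (Geo.el_mono (Geo.subset_ball h.2.1 h.1.1) hF)

theorem Rel.out (h : a.Rel m t t') (hℓ : ℓ ≤ ℓ') (hm : ℓ' + 3 ≤ m) {x : g.P}
    (hx : a.dep (ℓ + m) x) : g'.out ℓ ℓ' t' (a.φ x) = a.Φ (g.out ℓ ℓ' t x) := by
  classical
  have hW : a.In m (ball x ℓ) := Iso.in_ball hx le_rfl
  have h0 : a.In 0 (ball x ℓ) := hW.le (Nat.zero_le _)
  rw [Geo.out, Geo.out, map_sum, Iso.sum_sets h0 (fun U hU => Geo.subset_ball hU.1 hU.2.1)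
    (fun U hU => by
      rw [Iso.image_ball (Iso.le hx (by omega))]
      exact Geo.subset_ball hU.1 hU.2.1)
    (fun U hU => and_congr (Iso.mem_image_iff (h0.sub hU) (Iso.le hx (Nat.zero_le _)))
      (Xtr_iff hℓ ((hW.sub hU).le (by omega))))]
  refine sum_congr rfl fun U hU => ?_
  have h1 := (mem_filter.1 hU).2
  have h2 := Geo.subset_ball h1.1 h1.2.1
  rw [map_smul, card_image_of_injOn (h0.sub h2).injOn, h.rem hℓ hm (hW.sub h2)]

theorem Rel.step (h : a.Rel m t t') {j : ℕ} (hJ : a.SameJ j) (h1 : 1 ≤ ℓ) (hℓ : ℓ ≤ ℓ')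
    (hm : ℓ' + 3 ≤ m) (d : ℝ × ℝ) :
    a.Rel (ℓ + m) (g.step j ℓ ℓ' d t) (g'.step j ℓ ℓ' d t') where
  loc := h.loc.step j ℓ ℓ' d
  K X hX := by
    have hW : a.In m X := hX.le (by omega)
    have h0 : a.In 0 X := hX.le (Nat.zero_le _)
    simp only [Geo.step]
    rw [map_sum, Iso.sum_sets (p := fun U => g.tgt ℓ U = X) h0
      (fun U hU => by rw [← hU]; exact Geo.subset_tgt ℓ U)
      (fun U hU => by rw [← hU]; exact Geo.subset_tgt ℓ U) (fun U hU => ?_)]
    · refine sum_congr rfl fun U hU => ?_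
      have h2 : U ⊆ X := (mem_filter.1 hU).2 ▸ Geo.subset_tgt ℓ U
      rw [map_sub, h.rem hℓ hm (hW.sub h2),
        xtr hJ hℓ ((hW.sub h2).le (by omega)) (h.loc.rem ℓ ℓ' U)]
    · rw [tgt_image h1 ((hX.sub hU).le (by omega))]
      refine ⟨Iso.image_inj ?_ h0, fun e => by rw [e]⟩
      unfold Geo.tgt
      split_ifs
      · exact Iso.in_plus ((hX.sub hU).le (by omega))
      · exact h0.sub hU
  v x hx := by
    simp only [Geo.step]
    rw [map_add, map_add, map_add, map_smul, map_smul, h.v x (Iso.le hx (by omega)),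
      h.out hℓ hm hx, a.Ext (Iso.le hx (by omega)) (h.loc.out ℓ ℓ' x),
      a.O1 (Iso.le hx (by omega)), a.O2 (Iso.le hx (by omega))]
  z k k' e hk := by
    classical
    have hW : a.In m (ball (g.src k).y ℓ) := Iso.in_ball hk le_rfl
    have h0 : a.In 0 (ball (g.src k).y ℓ) := hW.le (Nat.zero_le _)
    simp only [Geo.step]
    rw [mul_add, h.z k k' e (Iso.le hk (by omega)), mul_sum,
      Iso.sum_sets h0 (fun U hU => Geo.subset_ball hU.2.1 hU.1.1)
        (fun U hU => by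
          rw [Iso.image_ball (Iso.le hk (by omega)), ← (a.pos e).2]
          exact Geo.subset_ball hU.2.1 hU.1.1)
        (fun U hU => XtrB_iff hJ hℓ ((hW.sub hU).le (by omega)) e)]
    congr 1
    refine sum_congr rfl fun U hU => ?_
    have h2 := (mem_filter.1 hU).2
    have h3 := Geo.subset_ball h2.2.1 h2.1.1
    rw [h.rem hℓ hm (hW.sub h3),
      a.zt e (Iso.le hk (by omega)) (Geo.el_mono h3 (h.loc.rem ℓ ℓ' U))]

end step

end Agree

end Vale.Agent.P144Z
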