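import Vale.Agent.P144Z.R6.FMap

/-!
Monomial identifications commute with the extraction of the local terms.
-/

namespace Vale.Agent.P144Z

open Finset Matrix R6

set_option linter.unusedSectionVars false

namespace FMap

variable {g g' : Geo} {m : FMap g g'}

/-- The path signs, the coordinates and the sources correspond. -/
structure Good (m : FMap g g') : Prop where
  flat : ∀ {r x}, m.dep (r + 1) x → (Flat g'.A (m.φ x) r ↔ Flat g.A x r)
  tr : ∀ {ℓ x y}, m.dep (ℓ + 1) x → tdist y x ≤ ℓ →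
    trans g'.A (m.φ x) (m.φ y) = m.ε x * m.ε y * trans g.A x y
  lf : ∀ {ℓ x y}, m.dep (ℓ + 1) x → tdist y x ≤ ℓ → lft (m.φ y - m.φ x) = m.y.T (lft (y - x))
  on : ∀ {k k'}, m.κ k = some k' → (g'.src k').on = (g.src k).on
  dir : ∀ {k k'}, m.κ k = some k' → dr (g'.src k').dir = m.y.π (dr (g.src k).dir)
  surj : ∀ {k' x}, m.dep 0 x → (g'.src k').y = m.φ x → ∃ k, m.κ k = some k'

section

variable (h : m.Good) {ℓ : ℕ} {x : g.P} (hx : m.dep (ℓ + 1) x)
include h hx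

theorem Good.tf0 (a : Fin 2) (s : g.S) (hs : s ∈ g.gens (ball x ℓ)) :
    m.f (Pi.single s 1) ⬝ᵥ g'.ex (tf0 g'.A (m.φ x) a) =
      (m.ε x • ∑ a', m.y.R a a' • g.ex (P144Z.tf0 g.A x a')) s := by
  rw [f_dot]
  rcases s with s | s
  · have e := m.y.kv a s.2
    have hs' : tdist s.1 x ≤ ℓ := mem_ball.1 hs
    simp only [Geo.ex, Sum.elim_inl, pull, P144Z.tf0, h.tr hx hs', Pi.smul_apply,
      Fin.sum_univ_two, Pi.add_apply, smul_eq_mul] at e ⊢
    have := m.εε s.1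
    grind
  · simp [Geo.ex]

theorem Good.tf1 (b i : Fin 2) (s : g.S) (hs : s ∈ g.gens (ball x ℓ)) :
    m.f (Pi.single s 1) ⬝ᵥ g'.ex (tf1 g'.A (m.φ x) b i) =
      (m.ε x • ∑ b', ∑ i', (m.y.R b b' * m.y.Q i i') • g.ex (P144Z.tf1 g.A x b' i')) s := by
  rw [f_dot]
  rcases s with s | s
  · have e := m.y.kv b s.2
    have e' := m.y.mv b i s.2
    have hs' : tdist s.1 x ≤ ℓ := mem_ball.1 hs
    simp only [Geo.ex, Sum.elim_inl, pull, P144Z.tf1, h.tr hx hs', h.lf hx hs', m.y.crd,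
      Pi.smul_apply, Fin.sum_univ_two, Pi.add_apply,
      smul_eq_mul] at e e' ⊢
    have := m.εε s.1
    grind
  · simp [Geo.ex]

theorem Good.cM {F : Gr g.S} (hF : F ∈ loc (g.gens (ball x ℓ))) :
    g'.cM (m.φ x) (monG m.y.o m.f F) = g.cM x F := by
  rw [Geo.cM, beta_monG m.y.so _ hF (h.tf0 hx 0) (h.tf0 hx 1), Geo.cM]
  simp only [Fin.sum_univ_two, beta_add_left, beta_add_right, beta_smul_left, beta_smul_right,
    beta_self]
  rw [beta_swap F (g.ex (P144Z.tf0 g.A x 0))]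
  have := m.εε x
  have := m.y.det
  grind

theorem Good.cK {F : Gr g.S} (hF : F ∈ loc (g.gens (ball x ℓ))) (a b i : Fin 2) :
    g'.cK (m.φ x) (monG m.y.o m.f F) a b i = ∑ a', ∑ b', ∑ i',
      m.y.o * (m.y.R a a' * m.y.R b b' * m.y.Q i i') * g.cK x F a' b' i' := by
  rw [Geo.cK, beta_monG m.y.so _ hF (h.tf0 hx a) (h.tf1 hx b i)]
  simp only [Fin.sum_univ_two, beta_add_left, beta_add_right, beta_smul_left, beta_smul_right,
    Geo.cK]
  have := m.εε x
  grind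

end

theorem f_fld (x : g.P) (a' : Fin 2) :
    m.f (g.ex (fld x a')) = m.ε x • ∑ a, m.y.R a a' • g'.ex (fld (m.φ x) a) := by
  simp only [Geo.ex_fld, map_sum, map_smul, f_e1, smul_sum, smul_smul]
  rw [sum_comm]
  refine Eq.trans (sum_congr rfl fun c _ => ?_) (Equiv.sum_comp m.y.π _)
  rw [← sum_smul, ← mul_sum, ← m.y.kv']
  congr 1
  ring

theorem f_dfld {x : g.P} (hx : m.dep 1 x) (b' i' : Fin 2) : m.f (g.ex (dfld g.A x b' i')) =
    m.ε x • ∑ b, ∑ i, (m.y.R b b' * m.y.Q i i') • g'.ex (dfld g'.A (m.φ x) b i) := by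
  have e : ∀ b i, g'.ex (dfld g'.A (m.φ x) b i) = (1 / 2 : ℝ) • ∑ c,
      ((crd (m.y.T (stz c)) i : ℝ) * (m.ε x * m.ε (x + stp g.M c) * g.A (und x c))) •
        g'.ex (fld (m.φ (x + stp g.M c)) b) := fun b i => by
    rw [Geo.ex_dfld, ← Equiv.sum_comp m.y.π]
    congr 1
    exact sum_congr rfl fun c _ => by
      rw [m.y.stp, m.gauge (dep0 hx) (dep_stp hx c), nb (dep0 hx) (dep_stp hx c)]
  simp only [e, g.ex_dfld, map_smul, map_sum, f_fld, smul_sum, smul_smul]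
  rw [sum_comm]
  refine sum_congr rfl fun b _ => ?_
  rw [sum_comm]
  refine sum_congr rfl fun c _ => ?_
  rw [← sum_smul, m.y.crd' (stz c) i']
  congr 1
  simp only [Fin.sum_univ_two]
  have := m.εε x
  grind

theorem Φ_fd {x : g.P} (hx : m.dep 1 x) (a' b' i' : Fin 2) :
    m.Φ (pp (g.ex (fld x a')) (g.ex (dfld g.A x b' i'))) = ∑ a, ∑ b, ∑ i,
      (m.y.o * (m.y.R a a' * m.y.R b b' * m.y.Q i i')) •
        pp (g'.ex (fld (m.φ x) a)) (g'.ex (dfld g'.A (m.φ x) b i)) := by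
  rw [Φ_pp, f_fld, f_dfld hx, pp_smul_left, pp_smul_right, smul_smul (m.ε x), m.εε, one_smul]
  simp only [Fin.sum_univ_two, pp_add_left, pp_add_right, pp_smul_left, pp_smul_right]
  module

theorem val_Φ (F : g.E) : Ev.val (m.Φ F) = monG m.y.o m.f (Ev.val F) := val_mon m.y.so _ _

section

variable (h : m.Good) {ℓ : ℕ} {x : g.P} (hx : m.dep (ℓ + 1) x) {F : g.E}
  (hF : F ∈ g.el (ball x ℓ))
include h hx hF

theorem Good.nu : g'.nu (m.φ x) (m.Φ F) = g.nu x F := by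
  rw [Geo.nu, val_Φ, h.cM hx (mem_evLoc.1 hF), Geo.nu]

theorem Good.ze : g'.ze (m.φ x) (m.Φ F) = g.ze x F := by
  rw [Geo.ze, h.nu hx hF, Geo.ze, val_Φ]
  congr 2
  simp only [h.cK hx (mem_evLoc.1 hF)]
  conv_rhs => enter [2, a, 2, b, 2, i]; rw [m.y.kt' a b i]
  simp only [Fin.sum_univ_two]
  ring

theorem Good.Ext : g'.Ext (m.φ x) (m.Φ F) = m.Φ (g.Ext x F) := by
  have h1 : m.dep 1 x := Iso.le hx (by omega)
  rw [Geo.Ext, Geo.Ext, map_add, map_add, map_smul, map_smul, h.nu hx hF, h.ze hx hF, Φ_O1 h1,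
    Φ_O2 h1, val_Φ]
  congr 1
  simp only [map_sum, map_smul, Φ_fd h1, h.cK hx (mem_evLoc.1 hF)]
  conv_lhs => enter [2, a, 2, b, 2, i]; rw [m.y.kt a b i]
  simp only [Fin.sum_univ_two]
  module

end

theorem f_dot_e2 {k : g.K} {k' : g'.K} (e : m.κ k = some k') (i : Fin 2) (s : g.S) :
    m.f (Pi.single s 1) ⬝ᵥ g'.e2 k' i = (m.w k i • g.e2 k i) s := by
  rw [dotProduct_single_one]
  rcases s with s | ⟨k₂, i₂⟩
  · rw [m.f_e1]; simp
  · cases h : m.κ k₂ with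
    | none =>
      have : k₂ ≠ k := fun e' => by simp [e', e] at h
      rw [m.f_none h]; simp [this]
    | some k₃ =>
      rw [m.f_some h]
      by_cases h1 : k₂ = k
      · subst h1
        obtain rfl : k₃ = k' := Option.some.inj (h.symm.trans e)
        by_cases h2 : i₂ = i
        · simp [h2]
        · simp [h2, Ne.symm h2]
      · have : k' ≠ k₃ := fun e' => h1 (m.kinj h (e' ▸ e))
        simp [h1, this]

theorem db_map {k : g.K} {k' : g'.K} (e : m.κ k = some k') (F : g.E) :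
    g'.db k' (Ev.val (m.Φ F)) =
      (m.y.o * m.w k 0 * m.w k 1) • monG m.y.o m.f (g.db k (Ev.val F)) := by
  rw [val_Φ, Geo.db, LinearMap.comp_apply, del_monG m.y.so _ (A1.mem_loc_univ _) (Ev.val_mem F)
    (fun s _ => f_dot_e2 e 0 s) fun s _ => f_dot_e2 e 1 s]
  simp only [A1.del_smul_left, map_smul, smul_smul, Geo.db, LinearMap.comp_apply]
  congr 1
  ring

theorem aug_monG (F : Gr g.S) : aug (monG m.y.o m.f F) = aug F := by
  rw [monG_apply, aug_map]
  rcases m.y.so with e | e <;> rw [e]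
  · rw [rv_one]
  · rw [rv_neg, A1.aug_rev]

theorem aug_Φ (F : g.E) : aug (Ev.val (m.Φ F)) = aug (Ev.val F) := by rw [val_Φ, aug_monG]

theorem aug_db_Φ {k : g.K} {k' : g'.K} (e : m.κ k = some k') (F : g.E) :
    aug (g'.db k' (Ev.val (m.Φ F))) = m.y.o * m.w k 0 * m.w k 1 * aug (g.db k (Ev.val F)) := by
  rw [db_map e, map_smul, aug_monG, smul_eq_mul]

/-- The agreement defined by a monomial map. -/
noncomputable def Good.agree (h : m.Good) : Agree g g' where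
  toIso := m.toIso
  Φ := m.Φ
  κ := m.κ
  s k := m.y.o * m.w k 0 * m.w k 1
  one := m.Φ_one
  mul := m.Φ_mul
  flat := h.flat
  cov hℓ hU hF := cov_of (covP_anti (C.Dm_anti _) _ _) (covP_anti (C.Dm_anti _) _ _)
    (fun x hx x' hx' => covP_map hℓ (hU x hx) (hU x' hx')) hF
  noF := m.Φ_noF
  O1 := Φ_O1
  O2 := Φ_O2
  Ext hx hF := h.Ext hx hF
  pos := m.pos
  on := h.on
  kinj := m.kinj
  surj := h.surj
  bE0 e := by rw [Geo.bE, Φ_mul, Φ_bv0 e, zero_mul]
  bE1 {k k'} e hk := by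
    have h1 := Φ_edge (dep0 hk) (dep_stp hk (dr (g.src k).dir))
    rw [← h.dir e, und_dr, und_dr, ← (m.pos e).2] at h1
    rw [Geo.bE, Φ_mul, Φ_bv1 e, ← h1, smul_mul_assoc, Geo.bE]
  zt {k k' ℓ F} e hk hF := by
    have h1 := h.cM hk (F := g.db k (Ev.val F)) (del_loc _ (del_loc _ hF))
    rw [Geo.zt, db_map e, (m.pos e).2, Geo.cM, beta, map_smul, map_smul, map_smul, ← beta,
      ← Geo.cM, h1, Geo.zt, smul_eq_mul]
    ring

end FMap

end Vale.Agent.P144Z
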