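import Vale.Agent.P144Z.R6.FAgree

/-!
Monomial identifications commute with the microscopic interaction.
-/

namespace Vale.Agent.P144Z

open Finset Matrix R6

set_option linter.unusedSectionVars false

theorem R6.mem_potSets {R : ℕ} {B : Finset (ℤ × ℤ)} :
    B ∈ potSets R ↔ (∀ v ∈ B, |v.1| ≤ R ∧ |v.2| ≤ R) ∧ (0, 0) ∈ B := by
  simp only [potSets, mem_filter, mem_powerset, subset_iff, mem_product, mem_Icc, abs_le]

theorem R6.zero_mem_hull {B : Finset (ℤ × ℤ)} (h : (0, 0) ∈ B) : (0, 0) ∈ hull B :=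
  mem_hull.2 ⟨_, h, _, h, by simp⟩

theorem R6.hull_le {R : ℕ} {B : Finset (ℤ × ℤ)} (h : B ∈ potSets R) {v : ℤ × ℤ}
    (hv : v ∈ hull B) : |v.1| ≤ R + 1 ∧ |v.2| ≤ R + 1 := by
  obtain ⟨a, ha, b, hb, h1⟩ := mem_hull.1 hv
  have h2 := (mem_potSets.1 h).1 a ha
  have h3 := (mem_potSets.1 h).1 b hb
  simp only [abs_le] at h2 h3 ⊢
  omega

theorem R6.sum_potSets (y : Sy) (R : ℕ) (f : Finset (ℤ × ℤ) → ℝ) :
    ∑ B ∈ potSets R, f B = ∑ B ∈ potSets R, f (B.image y.T) := by
  have e : ∀ B : Finset (ℤ × ℤ), B.image y.T ∈ potSets R ↔ B ∈ potSets R := fun B => by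
    rw [mem_potSets, mem_potSets, forall_mem_image]
    refine and_congr (forall₂_congr fun v _ => y.box v R) ?_
    have : ((0, 0) : ℤ × ℤ) = y.T (0, 0) := (map_zero y.T).symm
    conv_lhs => rw [this]
    exact y.T.injective.mem_finset_image
  symm
  refine sum_bij (fun B _ => B.image y.T) (fun B hB => (e B).2 hB)
    (fun B _ B' _ h => image_injective y.T.injective h) (fun B hB => ?_) fun _ _ => rfl
  have h1 : (B.image y.T.symm).image y.T = B := by simp [image_image]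
  exact ⟨B.image y.T.symm, (e _).1 (h1.symm ▸ hB), h1⟩

theorem Geo.see_undz (g : Geo) (y : g.P) (n : g.Cfg) (v : ℤ × ℤ) (a : Fin 4) :
    g.see y n (undz v a) = n (und (y + prj g.M v) a) := by rw [und_prj, Geo.see]

namespace FMap

variable {g g' : Geo} {m : FMap g g'}

variable (m) in
/-- The map of the edges. -/
def η (e : Tor g.M × Fin 2) : Tor g'.M × Fin 2 := und (m.φ e.1) (m.y.π (dr e.2))

theorem put_image {y : g.P} (hy : m.dep 0 y) {Y : Finset (ℤ × ℤ)} (hY : ∀ v ∈ Y, m.sm v)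
    (h : m.In 0 (g.put y Y)) : g'.put (m.φ y) (Y.image m.y.T) = (g.put y Y).image m.φ := by
  rw [Geo.put, Geo.put, image_image, image_image]
  exact image_congr fun v hv => ((m.lin hy (h _ (Geo.mem_put hv)) (hY v hv)).2 rfl).symm

theorem put_iff {y : g.P} (hy : m.dep 0 y) {Y : Finset (ℤ × ℤ)} (hY : ∀ v ∈ Y, m.sm v)
    {X : Finset g.P} (hX : m.In 0 X) :
    g'.put (m.φ y) (Y.image m.y.T) = X.image m.φ ↔ g.put y Y = X := by
  refine ⟨fun h => ?_, fun h => by rw [put_image hy hY (h ▸ hX), h]⟩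
  have h1 : m.In 0 (g.put y Y) := by
    intro x hx
    obtain ⟨v, hv, rfl⟩ := mem_image.1 hx
    obtain ⟨x, hx, e⟩ := mem_image.1 (h ▸ Geo.mem_put (mem_image_of_mem m.y.T hv))
    exact (m.lin hy (hX x hx) (hY v hv)).1 e ▸ hX x hx
  exact Iso.image_inj h1 hX (by rw [← put_image hy hY h1, h])

theorem sum_put {Y : Finset (ℤ × ℤ)} (h0 : (0, 0) ∈ Y) (hY : ∀ v ∈ Y, m.sm v) {X : Finset g.P}
    (hX : m.In 0 X) (F : g'.P → ℝ) :
    ∑ y', (if g'.put y' (Y.image m.y.T) = X.image m.φ then F y' else 0) =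
      ∑ y, if g.put y Y = X then F (m.φ y) else 0 := by
  rw [← sum_filter, ← sum_filter]
  have h1 : ∀ y ∈ univ.filter (fun y => g.put y Y = X), m.dep 0 y := fun y hy =>
    hX y ((mem_filter.1 hy).2 ▸ Geo.self_mem_put h0)
  symm
  refine sum_bij (fun y _ => m.φ y) (fun y hy => mem_filter.2 ⟨mem_univ _,
    (put_iff (h1 y hy) hY hX).2 (mem_filter.1 hy).2⟩)
    (fun y hy y' hy' => Iso.inj (h1 y hy) (h1 y' hy')) (fun y' hy' => ?_) fun _ _ => rfl
  have h2 := (mem_filter.1 hy').2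
  obtain ⟨y, hy, rfl⟩ := mem_image.1 (h2 ▸ Geo.self_mem_put
    (mem_image.2 ⟨(0, 0), h0, map_zero m.y.T⟩))
  exact ⟨y, mem_filter.2 ⟨mem_univ _, (put_iff (hX y hy) hY hX).1 h2⟩, rfl⟩

theorem see_η {y : g.P} (hy : m.dep 0 y) {Y : Finset (ℤ × ℤ)} (hY : ∀ v ∈ Y, m.sm v)
    (h : m.In 0 (g.put y Y)) (n' : g'.Cfg) {e : (ℤ × ℤ) × Fin 2} (he : e.1 ∈ Y) :
    n' (und (m.φ y + prj g'.M (m.y.T e.1)) (m.y.π (dr e.2))) = g.see y (n' ∘ m.η) e := by
  rw [← (m.lin hy (h _ (Geo.mem_put he)) (hY _ he)).2 rfl]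
  rfl

/-- The interaction and the observables correspond. -/
structure GoodI (m : FMap g g') (q : Par) : Prop where
  ok : ∀ k, (g.src k).Ok
  ok' : ∀ k, (g'.src k).Ok
  pot : P144.IsPotential q.V
  smR : ∀ v : ℤ × ℤ, |v.1| ≤ q.R + 1 ∧ |v.2| ≤ q.R + 1 → m.sm v
  smY : ∀ {k k'}, m.κ k = some k' → ∀ v ∈ (g.src k).Y, m.sm v
  Y : ∀ {k k'}, m.κ k = some k' → (g'.src k').Y = (g.src k).Y.image m.y.T
  O : ∀ {k k'}, m.κ k = some k' → ∀ n,
    (g'.src k').O n = (g.src k).O fun e => n (undz (m.y.T e.1) (m.y.π (dr e.2)))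
  s1 : ∀ {k k'}, m.κ k = some k' → m.y.o * m.w k 0 * m.w k 1 = 1

variable {q : Par}

theorem GoodI.put (h : m.GoodI q) {k : g.K} {k' : g'.K} {X : Finset g.P} (e : m.κ k = some k')
    (hX : m.In 0 X) :
    g'.put (g'.src k').y (g'.src k').Y = X.image m.φ ↔ g.put (g.src k).y (g.src k).Y = X := by
  rw [(m.pos e).2, h.Y e]
  exact put_iff (m.pos e).1 (h.smY e) hX

theorem GoodI.hin (h : m.GoodI q) (h' : m.Good) {X : Finset g.P} (hX : m.In 0 X) (n' : g'.Cfg) :
    g'.Hin q (X.image m.φ) n' = m.Φ (g.Hin q X (n' ∘ m.η)) := by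
  rw [Geo.Hin, Geo.Hin, map_add, map_smul, Φ_one]
  congr 1
  · congr 1
    simp only [sum_filter]
    rw [← Equiv.sum_comp (Equiv.addRight (prj g'.M m.y.t)), sum_comm, sum_comm (s := univ),
      sum_potSets m.y]
    refine sum_congr rfl fun B hB => ?_
    have h0 := zero_mem_hull (mem_potSets.1 hB).2
    have hY : ∀ v ∈ hull B, m.sm v := fun v hv => h.smR v (hull_le hB hv)
    have e1 : ∀ y', g'.put (y' + prj g'.M m.y.t) (hull (B.image m.y.T)) =
        g'.put y' ((hull B).image m.y.T) := fun y' => by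
      rw [m.y.hull, Geo.put, Geo.put, image_image, image_image]
      exact image_congr fun v _ => by simp [prj_sub]
    simp only [Equiv.coe_addRight, e1, m.y.spin, Geo.see_undz, prj_sub, add_add_sub_cancel,
      m.y.pot _ h.pot, card_image_of_injective _ m.y.T.injective]
    rw [sum_put h0 hY hX]
    refine sum_congr rfl fun y _ => ?_
    split_ifs with h1
    · rw [spinFn_congr fun e he _ =>
        see_η (hX y (h1 ▸ Geo.self_mem_put h0)) hY (h1 ▸ hX) n' he]
    · rfl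
  · rw [map_sum, sum_filter, sum_filter]
    symm
    refine sum_opt m.κ m.kinj _ _ (fun k e => ?_) (fun k k' e => ?_) fun k' e => ?_
    · rw [map_smul, Φ_bv0 e, smul_zero, ite_self]
    · simp only [h.put e hX]
      split_ifs with h1
      · rw [map_smul, Φ_bv1 e, h.s1 e, one_smul, h.O e, (m.pos e).2]
        congr 1
        refine (h.ok k).dep _ _ fun e' he _ => ?_
        rw [Geo.see_undz, see_η (m.pos e).1 (h.smY e) (h1 ▸ hX) n' he]
      · rfl
    · refine if_neg fun h1 => ?_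
      obtain ⟨x, hx, e1⟩ := mem_image.1 (h1 ▸ Geo.self_mem_put (h.ok' k').zero)
      obtain ⟨k, hk⟩ := h'.surj (hX x hx) e1.symm
      exact e k hk

theorem η_inj {e e' : Tor g.M × Fin 2} (he : m.dep 0 e.1) (he' : m.dep 0 e'.1)
    (h : m.η e = m.η e') : e = e' := by
  have k1 : ∀ {x x' : g'.P} {a b : Fin 4}, und x a = und x' b → b = a ∨ b = a + 2 := by
    intro x x' a b h
    have := congrArg Prod.snd h
    fin_cases a <;> fin_cases b <;> simp [und] at this ⊢
  have k2 : ∀ {x x' : g'.P} {a : Fin 4}, und x a = und x' a → x = x' := by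
    intro x x' a h
    fin_cases a <;> simpa [und] using h
  have k3 : e'.2 = e.2 := by
    have := k1 h
    rw [← m.y.opp, m.y.π.injective.eq_iff, m.y.π.injective.eq_iff] at this
    revert this
    generalize e.2 = i
    generalize e'.2 = i'
    revert i i'
    decide
  rw [η, η, k3] at h
  exact Prod.ext (Iso.inj he he' (k2 h)) k3.symm

/-- The compatibility with the initial state. -/
noncomputable def GoodI.ini (h : m.GoodI q) (h' : m.Good) : h'.agree.Ini q where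
  η := m.η
  ok := h.ok
  ok' := h.ok'
  edge {e} h1 h2 := by
    have := Φ_edge (a := dr e.2) h1 (by rwa [stp_dr])
    rwa [und_dr] at this
  inj hX he he' := η_inj (hX _ he.1) (hX _ he'.1)
  hin hX := h.hin h' hX
  put e hX := h.put e hX
  s1 := h.s1

end FMap

end Vale.Agent.P144Z
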