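import Vale.Agent.P144Z.R6.Loc

/-!
Substitutions composed with the reversal of the order of the fields.
-/

namespace Vale.Agent.P144Z.R6

open Finset Matrix

set_option linter.unusedSectionVars false

variable {S S' : Type} [Fintype S] [DecidableEq S] [Fintype S'] [DecidableEq S']

/-- The reversal, unless `o = 1`. -/
noncomputable def rv (o : ℝ) : Gr S →ₗ[ℝ] Gr S :=
  if o = 1 then LinearMap.id else CliffordAlgebra.reverse

theorem rv_one (F : Gr S) : rv 1 F = F := by simp [rv]

theorem rv_neg (F : Gr S) : rv (-1) F = A1.rev F := by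
  rw [rv, if_neg (by norm_num)]

theorem rev_even {F : Gr S} (hF : F ∈ evenS S) : A1.rev F ∈ evenS S :=
  (CliffordAlgebra.reverse_mem_evenOdd_iff (Q := 0) (n := 0)).2 hF

/-- Substitution with reversal. -/
noncomputable def monG (o : ℝ) (f : (S → ℝ) →ₗ[ℝ] (S' → ℝ)) : Gr S →ₗ[ℝ] Gr S' :=
  (ExteriorAlgebra.map f).toLinearMap ∘ₗ rv o

theorem monG_apply (o : ℝ) (f : (S → ℝ) →ₗ[ℝ] (S' → ℝ)) (F : Gr S) :
    monG o f F = ExteriorAlgebra.map f (rv o F) := rfl

/-- The same on even elements. -/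
noncomputable def mon (o : ℝ) (f : (S → ℝ) →ₗ[ℝ] (S' → ℝ)) : Ev S →ₗ[ℝ] Ev S' := evL (monG o f)

theorem mon_one_eq (f : (S → ℝ) →ₗ[ℝ] (S' → ℝ)) : mon 1 f = evMap f := by
  rw [mon, monG, rv, if_pos rfl, LinearMap.comp_id, evMap]

variable {o : ℝ} (ho : o = 1 ∨ o = -1) (f : (S → ℝ) →ₗ[ℝ] (S' → ℝ))
include ho

theorem rv_even {F : Gr S} (hF : F ∈ evenS S) : rv o F ∈ evenS S := by
  rcases ho with rfl | rfl
  · rwa [rv_one]
  · rw [rv_neg]; exact rev_even hF

theorem rv_loc {T : Set S} {F : Gr S} (hF : F ∈ loc T) : rv o F ∈ loc T := by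
  rcases ho with rfl | rfl
  · rwa [rv_one]
  · rw [rv_neg]; exact A1.rev_loc hF

theorem val_mon (F : Ev S) : Ev.val (mon o f F) = monG o f (Ev.val F) :=
  val_toEv (map_even f (rv_even ho (Ev.val_mem F)))

theorem mon_one : mon o f 1 = 1 := by
  refine Ev.val_injective ?_
  rw [val_mon ho, map_one Ev.val, map_one Ev.val, monG_apply]
  rcases ho with rfl | rfl
  · rw [rv_one, map_one]
  · rw [rv_neg, A1.rev_one, map_one]

theorem mon_mul (F G : Ev S) : mon o f (F * G) = mon o f F * mon o f G := by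
  refine Ev.val_injective ?_
  rw [map_mul Ev.val, val_mon ho, val_mon ho, val_mon ho, map_mul Ev.val F, monG_apply, monG_apply,
    monG_apply, ← map_mul (ExteriorAlgebra.map f)]
  rcases ho with rfl | rfl
  · simp only [rv_one]
  · simp only [rv_neg]
    rw [A1.rev_mul, mul_comm_of_even (rev_even (Ev.val_mem F))]

theorem mon_pp (δ δ' : S → ℝ) : mon o f (pp δ δ') = o • pp (f δ) (f δ') := by
  refine Ev.val_injective ?_
  rw [val_mon ho, map_smul, val_pp, val_pp, monG_apply]
  rcases ho with rfl | rfl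
  · rw [rv_one, one_smul, map_mul, A1.map_psi, A1.map_psi]
  · rw [rv_neg, A1.rev_mul, A1.rev_psi, A1.rev_psi, map_mul, A1.map_psi, A1.map_psi, A1.psi_swap,
      neg_one_smul]

theorem mon_loc {T : Set S} {T' : Set S'} {F : Ev S} (hF : F ∈ evLoc T)
    (h : ∀ s ∈ T, ∀ s' ∉ T', f (Pi.single s 1) s' = 0) : mon o f F ∈ evLoc T' := by
  rw [mem_evLoc, val_mon ho]
  exact map_loc (rv_loc ho hF) h

theorem beta_monG {T : Set S} {F : Gr S} (hF : F ∈ loc T) {u v : S → ℝ} {u' v' : S' → ℝ}
    (hu : ∀ s ∈ T, f (Pi.single s 1) ⬝ᵥ u' = u s) (hv : ∀ s ∈ T, f (Pi.single s 1) ⬝ᵥ v' = v s) :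
    beta (monG o f F) u' v' = o * beta F u v := by
  have h1 := rv_loc ho hF
  have h2 : beta (monG o f F) u' v' = beta (rv o F) u v := by
    rw [beta, monG_apply, del_map f u u' h1 hu, del_map f v v' (del_loc u h1) hv, aug_map, beta]
  rw [h2]
  rcases ho with rfl | rfl
  · rw [rv_one, one_mul]
  · rw [rv_neg, beta_reverse, neg_one_mul]

theorem del_monG {T : Set S} {F : Gr S} (hF : F ∈ loc T) (he : F ∈ evenS S) {u v : S → ℝ}
    {u' v' : S' → ℝ} (hu : ∀ s ∈ T, f (Pi.single s 1) ⬝ᵥ u' = u s)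
    (hv : ∀ s ∈ T, f (Pi.single s 1) ⬝ᵥ v' = v s) :
    del v' (del u' (monG o f F)) = o • monG o f (del v (del u F)) := by
  have h1 := rv_loc ho hF
  rw [monG_apply, del_map f u u' h1 hu, del_map f v v' (del_loc u h1) hv, monG_apply, ← map_smul]
  congr 1
  rcases ho with rfl | rfl
  · simp only [rv_one, one_smul]
  · simp only [rv_neg]
    have e := A1.mem_even_iff.1 (rev_even he)
    rw [A1.rev_del, A1.rev_del, e, map_neg, A1.inv_del, e]
    simp

theorem evG_mon {C : Matrix S S ℝ} {C' : Matrix S' S' ℝ} (hC : Cᵀ = -C) (hC' : C'ᵀ = -C')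
    {T : Set S} {F : Ev S} (hF : F ∈ evLoc T)
    (h : ∀ s ∈ T, ∀ s' ∈ T, f (Pi.single s 1) ⬝ᵥ C' *ᵥ f (Pi.single s' 1) = o * C s s') :
    evG C' (mon o f F) = mon o f (evG C F) := by
  refine Ev.val_injective ?_
  rw [val_evG, val_mon ho, val_mon ho, val_evG, monG_apply, monG_apply,
    gauss_map (C := o • C) (by rw [transpose_smul, hC, smul_neg]) hC' f (rv_loc ho (mem_evLoc.1 hF)) h]
  congr 1
  rcases ho with rfl | rfl
  · simp only [rv_one, one_smul]
  · simp only [rv_neg, neg_one_smul]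
    exact gauss_reverse C _

theorem evMap_mon {p : (S → ℝ) →ₗ[ℝ] (S → ℝ)} {p' : (S' → ℝ) →ₗ[ℝ] (S' → ℝ)}
    (h : p' ∘ₗ f = f ∘ₗ p) (F : Ev S) : evMap p' (mon o f F) = mon o f (evMap p F) := by
  refine Ev.val_injective ?_
  have e : ∀ G : Gr S, rv o (ExteriorAlgebra.map p G) = ExteriorAlgebra.map p (rv o G) := by
    intro G
    rcases ho with rfl | rfl
    · simp only [rv_one]
    · simp only [rv_neg]
      induction G using ExteriorAlgebra.induction with
      | algebraMap r =>
        rw [AlgHom.commutes, CliffordAlgebra.reverse.commutes, AlgHom.commutes]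
      | ι x =>
        change A1.rev (ExteriorAlgebra.map p (psi x)) = ExteriorAlgebra.map p (A1.rev (psi x))
        rw [A1.map_psi, A1.rev_psi, A1.rev_psi, A1.map_psi]
      | mul a b ha hb => rw [map_mul, A1.rev_mul, A1.rev_mul, map_mul, ha, hb]
      | add a b ha hb => rw [map_add, map_add, map_add, map_add, ha, hb]
  rw [val_evMap, val_mon ho, val_mon ho, val_evMap, monG_apply, monG_apply, e,
    ← AlgHom.comp_apply, ← AlgHom.comp_apply, ExteriorAlgebra.map_comp_map,
    ExteriorAlgebra.map_comp_map, h]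

omit ho

theorem beta_add_left (F : Gr S) (u u' v : S → ℝ) :
    beta F (u + u') v = beta F u v + beta F u' v := by
  simp only [beta, A1.del_add_left, map_add]

theorem beta_add_right (F : Gr S) (u v v' : S → ℝ) :
    beta F u (v + v') = beta F u v + beta F u v' := by
  simp only [beta, A1.del_add_left, map_add]

theorem beta_smul_left (F : Gr S) (c : ℝ) (u v : S → ℝ) : beta F (c • u) v = c * beta F u v := by
  simp only [beta, A1.del_smul_left, map_smul, smul_eq_mul]

theorem beta_smul_right (F : Gr S) (c : ℝ) (u v : S → ℝ) : beta F u (c • v) = c * beta F u v := by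
  simp only [beta, A1.del_smul_left, map_smul, smul_eq_mul]

theorem beta_self (F : Gr S) (u : S → ℝ) : beta F u u = 0 := by
  simp only [beta, A1.del_del, map_zero]

theorem beta_swap (F : Gr S) (u v : S → ℝ) : beta F v u = -beta F u v := by
  rw [beta, A1.del_comm, map_neg, beta]

theorem pp_add_left (u u' v : S → ℝ) : pp (u + u') v = pp u v + pp u' v := by
  simp only [pp, A1.psi_add, add_mul, map_add]

theorem pp_add_right (u v v' : S → ℝ) : pp u (v + v') = pp u v + pp u v' := by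
  simp only [pp, A1.psi_add, mul_add, map_add]

theorem pp_smul_left (c : ℝ) (u v : S → ℝ) : pp (c • u) v = c • pp u v := by
  simp only [pp, A1.psi_smul, smul_mul_assoc, map_smul]

theorem pp_smul_right (c : ℝ) (u v : S → ℝ) : pp u (c • v) = c • pp u v := by
  simp only [pp, A1.psi_smul, mul_smul_comm, map_smul]

theorem pp_swap (u v : S → ℝ) : pp v u = -pp u v := by
  rw [pp, A1.psi_swap, map_neg, pp]

theorem pp_zero_left (v : S → ℝ) : pp 0 v = 0 := by
  rw [pp, A1.psi_zero, zero_mul, map_zero]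

end Vale.Agent.P144Z.R6
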