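import Vale.Agent.P144Z.R6.Sy
import Vale.Agent.P144Z.R6.Mon
import Vale.Agent.P144Z.C.Main

/-!
Monomial identifications of two geometries.
-/

namespace Vale.Agent.P144Z

open Finset Matrix R6

set_option linter.unusedSectionVars false

namespace R6

/-- The four steps on the torus. -/
def stp (M : ℕ) (a : Fin 4) : Tor M := prj M (stz a)

/-- The edge of a step. -/
def und {M : ℕ} (x : Tor M) (a : Fin 4) : Tor M × Fin 2 :=
  ![(x, 0), (x, 1), (x - uv M 0, 0), (x - uv M 1, 1)] a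

variable {M : ℕ}

theorem stp_zero : stp M 0 = uv M 0 := by simp [stp, stz, uv, prj]

theorem stp_one : stp M 1 = uv M 1 := by simp [stp, stz, uv, prj]

theorem stp_two : stp M 2 = -uv M 0 := by simp [stp, stz, uv, prj]

theorem stp_three : stp M 3 = -uv M 1 := by simp [stp, stz, uv, prj]

theorem stp_dr (i : Fin 2) : stp M (dr i) = uv M i := by
  fin_cases i
  exacts [stp_zero, stp_one]

theorem und_dr (x : Tor M) (i : Fin 2) : und x (dr i) = (x, i) := by fin_cases i <;> rfl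

theorem und_prj (y : Tor M) (v : ℤ × ℤ) (a : Fin 4) :
    und (y + prj M v) a = (y + prj M (undz v a).1, (undz v a).2) := by
  fin_cases a <;> simp [und, undz, prj_sub, prj_uz, add_sub_assoc]

theorem tdist_stp [NeZero M] (x : Tor M) (a : Fin 4) : tdist (x + stp M a) x ≤ 1 := by
  refine Iso.tdist_star ?_
  fin_cases a <;> simp [star, stp_zero, stp_one, stp_two, stp_three, sub_eq_add_neg]

theorem star_eq (x : Tor M) : star x = insert x (univ.image fun a => x + stp M a) := by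
  ext y
  simp [star, Fin.exists_fin_succ, stp_zero, stp_one, stp_two, stp_three, sub_eq_add_neg, eq_comm]
  tauto

theorem star_image {M' : ℕ} (φ : Tor M → Tor M') (π : Equiv.Perm (Fin 4)) {x : Tor M}
    (h : ∀ a, φ (x + stp M a) = φ x + stp M' (π a)) : (star x).image φ = star (φ x) := by
  rw [star_eq, star_eq, image_insert, image_image]
  congr 1
  ext y
  simp only [mem_image, mem_univ, true_and, Function.comp, h]
  exact ⟨fun ⟨a, e⟩ => ⟨π a, e⟩, fun ⟨a, e⟩ => ⟨π.symm a, by simpa using e⟩⟩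

theorem Dm_eq (A : Gauge M) (x y : Tor M) (a b : Fin 4) : Dm A (x, a) (y, b) =
    (if x = y then sA a b else 0) +
      tc * if b = a + 2 ∧ y = x + stp M a then sg a * A (und x a) else 0 := by
  have e : ∀ i, (-if x = y + uv M i then A (y, i) else 0) =
      if y = x + -uv M i then -A (x - uv M i, i) else 0 := fun i => by
    by_cases h : x = y + uv M i
    · rw [if_pos h, if_pos (by rw [h]; simp), h, add_sub_cancel_right]
    · rw [if_neg h, if_neg fun h' => h (by rw [h']; simp), neg_zero]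
  simp only [Dm, of_apply]
  congr 2
  fin_cases a <;> fin_cases b <;>
    simp [hop, sg, und, stp_zero, stp_one, stp_two, stp_three, e]

theorem dfld_eq (A : Gauge M) (x : Tor M) (b i : Fin 2) : dfld A x b i =
    (1 / 2 : ℝ) • ∑ c, ((crd (stz c) i : ℝ) * A (und x c)) • fld (x + stp M c) b := by
  fin_cases i <;>
    simp [dfld, Fin.sum_univ_four, crd, stz, und, stp_zero, stp_one, stp_two, stp_three,
      sub_eq_add_neg]

theorem fld_eq [NeZero M] (x : Tor M) (b : Fin 2) :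
    fld x b = ∑ c, kv b c • (Pi.single (x, c) 1 : Tor M × Fin 4 → ℝ) := by
  funext ⟨y, c⟩
  by_cases h : y = x <;> simp [fld, Finset.sum_apply, Pi.single_apply, h]

end R6

namespace Geo

variable (g : Geo)

/-- The smearing function of one field. -/
abbrev e1 (x : g.P) (a : Fin 4) : g.S → ℝ := Pi.single (Sum.inl (x, a)) 1

/-- The smearing function of one source generator. -/
abbrev e2 (k : g.K) (i : Fin 2) : g.S → ℝ := Pi.single (Sum.inr (k, i)) 1

theorem edge_und (x : g.P) (a : Fin 4) : g.edge (und x a).1 (und x a).2 =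
    (sg a * g.A (und x a)) • pp (g.e1 x a) (g.e1 (x + stp g.M a) (a + 2)) := by
  fin_cases a
  · simp [edge, und, sg, stp_zero]
  · simp [edge, und, sg, stp_one]
  · rw [pp_swap]
    simp [edge, und, sg, stp_two, sub_eq_add_neg]
  · rw [pp_swap]
    simp [edge, und, sg, stp_three, sub_eq_add_neg]

theorem O1_eq (x : g.P) : g.O1 x = (1 / 2 : ℝ) • ∑ a, g.edge (und x a).1 (und x a).2 := by
  rw [O1, Fin.sum_univ_two, Fin.sum_univ_four]
  congr 1
  simp only [und]
  simp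
  abel

theorem site_eq (x : g.P) :
    g.site x = (1 / 2 : ℝ) • ∑ a, ∑ b, sA a b • pp (g.e1 x a) (g.e1 x b) := by
  simp only [site, Fin.sum_univ_four, sA]
  rw [pp_swap (g.e1 x 0) (g.e1 x 1), pp_swap (g.e1 x 0) (g.e1 x 2), pp_swap (g.e1 x 0) (g.e1 x 3),
    pp_swap (g.e1 x 1) (g.e1 x 2), pp_swap (g.e1 x 1) (g.e1 x 3), pp_swap (g.e1 x 2) (g.e1 x 3)]
  simp
  module

theorem ex_fld (x : g.P) (b : Fin 2) : g.ex (fld x b) = ∑ c, kv b c • g.e1 x c := by
  funext s
  rcases s with ⟨y, c⟩ | s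
  · by_cases h : y = x <;> simp [ex, fld, Finset.sum_apply, Pi.single_apply, h]
  · simp [ex, Finset.sum_apply]

theorem ex_dfld (x : g.P) (b i : Fin 2) : g.ex (dfld g.A x b i) =
    (1 / 2 : ℝ) • ∑ c, ((crd (stz c) i : ℝ) * g.A (und x c)) • g.ex (fld (x + stp g.M c) b) := by
  rw [dfld_eq]
  funext s
  rcases s with s | s <;> simp [ex, Finset.sum_apply]

theorem exM_anti {C : Matrix (Tor g.M × Fin 4) (Tor g.M × Fin 4) ℝ} (h : Cᵀ = -C) :
    (g.exM C)ᵀ = -g.exM C := by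
  simp [exM, fromBlocks_transpose, h, fromBlocks_neg]

end Geo

/-- A map of the generators: lattice symmetry, gauge signs, and weights of the sources. -/
structure FMap (g g' : Geo) extends Iso g.M g'.M where
  y : Sy
  ε : g.P → ℝ
  sm : ℤ × ℤ → Prop
  κ : g.K → Option g'.K
  w : g.K → Fin 2 → ℝ
  sε : IsSign ε
  sm1 : ∀ a, sm (stz a)
  lin : ∀ {x x' v}, dep 0 x → dep 0 x' → sm v →
    (φ x' = φ x + prj g'.M (y.T v) ↔ x' = x + prj g.M v)
  gauge : ∀ {x a}, dep 0 x → dep 0 (x + stp g.M a) →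
    g'.A (und (φ x) (y.π a)) = ε x * ε (x + stp g.M a) * g.A (und x a)
  pos : ∀ {k k'}, κ k = some k' → dep 0 (g.src k).y ∧ (g'.src k').y = φ (g.src k).y
  kinj : ∀ {k k₂ k'}, κ k = some k' → κ k₂ = some k' → k = k₂

namespace FMap

variable {g g' : Geo} (m : FMap g g')

/-- The images of the generators. -/
noncomputable def fv : g.S → g'.S → ℝ
  | .inl s => (m.ε s.1 * m.y.σ s.2) • g'.e1 (m.φ s.1) (m.y.π s.2)
  | .inr k => (m.κ k.1).elim 0 fun k' => m.w k.1 k.2 • g'.e2 k' k.2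

/-- The map of the smearing functions. -/
noncomputable def f : (g.S → ℝ) →ₗ[ℝ] (g'.S → ℝ) := Fintype.linearCombination ℝ m.fv

/-- The map of the algebras. -/
noncomputable def Φ : g.E →ₗ[ℝ] g'.E := mon m.y.o m.f

/-- The pull-back of test functions. -/
noncomputable def pull (u : Tor g'.M × Fin 4 → ℝ) (s : Tor g.M × Fin 4) : ℝ :=
  m.ε s.1 * m.y.σ s.2 * u (m.φ s.1, m.y.π s.2)

theorem f_single (s : g.S) : m.f (Pi.single s 1) = m.fv s := by
  rw [f, Fintype.linearCombination_apply_single, one_smul]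

theorem f_e1 (x : g.P) (a : Fin 4) :
    m.f (g.e1 x a) = (m.ε x * m.y.σ a) • g'.e1 (m.φ x) (m.y.π a) := m.f_single _

theorem f_none {k : g.K} (h : m.κ k = none) (i : Fin 2) : m.f (g.e2 k i) = 0 := by
  rw [f_single, fv, h]; rfl

theorem f_some {k : g.K} {k' : g'.K} (h : m.κ k = some k') (i : Fin 2) :
    m.f (g.e2 k i) = m.w k i • g'.e2 k' i := by
  rw [f_single, fv, h]; rfl

theorem f_inr (k : g.K × Fin 2) (s : Tor g'.M × Fin 4) :
    m.f (Pi.single (Sum.inr k) 1) (Sum.inl s) = 0 := by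
  cases h : m.κ k.1 with
  | none => rw [m.f_none h]; rfl
  | some k' => rw [m.f_some h]; simp

theorem f_dot (u : Tor g'.M × Fin 4 → ℝ) (s : g.S) :
    m.f (Pi.single s 1) ⬝ᵥ g'.ex u = g.ex (m.pull u) s := by
  rcases s with s | k
  · rw [m.f_e1, smul_dotProduct, single_one_dotProduct]; rfl
  · simp [dotProduct, Fintype.sum_sum_type, f_inr, Geo.ex]

theorem εε (x : g.P) : m.ε x * m.ε x = 1 := G.sign_sq m.sε x

theorem σσ (a : Fin 4) : m.y.σ a * m.y.σ a = 1 := G.sign_sq m.y.sσ a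

theorem oo : m.y.o * m.y.o = 1 := by rcases m.y.so with h | h <;> simp [h]

theorem Φ_pp (δ δ' : g.S → ℝ) : m.Φ (pp δ δ') = m.y.o • pp (m.f δ) (m.f δ') :=
  mon_pp m.y.so _ _ _

theorem Φ_one : m.Φ 1 = 1 := mon_one m.y.so _

theorem Φ_mul (F G : g.E) : m.Φ (F * G) = m.Φ F * m.Φ G := mon_mul m.y.so _ _ _

theorem Φ_noF (F : g.E) : g'.noF (m.Φ F) = m.Φ (g.noF F) := by
  refine evMap_mon m.y.so _ ((Pi.basisFun ℝ g.S).ext fun s => ?_) F
  rw [Pi.basisFun_apply, LinearMap.comp_apply, LinearMap.comp_apply]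
  rcases s with s | k
  · have e : res (Set.range Sum.inr) (g.e1 s.1 s.2) = 0 := by
      funext t; cases t <;> simp [res]
    rw [e, map_zero, m.f_e1]
    funext t; cases t <;> simp [res]
  · rw [A1.res_single (Set.mem_range_self k)]
    funext t
    rcases t with t | t
    · simp [res, f_inr]
    · exact if_pos (Set.mem_range_self t)

theorem Φ_noB (F : g.E) : g'.noB (m.Φ F) = m.Φ (g.noB F) := by
  refine evMap_mon m.y.so _ ((Pi.basisFun ℝ g.S).ext fun s => ?_) F
  rw [Pi.basisFun_apply, LinearMap.comp_apply, LinearMap.comp_apply]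
  rcases s with s | k
  · rw [A1.res_single (Set.mem_range_self s), m.f_e1]
    funext t; cases t <;> simp [res]
  · have e : res (Set.range Sum.inl) (g.e2 k.1 k.2) = 0 := by
      funext t; cases t <;> simp [res]
    rw [e, map_zero]
    funext t; cases t <;> simp [res, f_inr]

theorem Φ_el {X : Finset g.P} {F : g.E} (hF : F ∈ g.el X) : m.Φ F ∈ g'.el (X.image m.φ) := by
  refine mon_loc m.y.so _ hF fun s hs t ht => ?_
  rcases s with s | k
  · rw [m.f_e1, Pi.smul_apply, Geo.e1,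
      single_zero (Geo.inl_gens (mem_image_of_mem _ (show s.1 ∈ X from hs)) _) t ht, smul_zero]
  · cases h : m.κ k.1 with
    | none => rw [m.f_none h]; rfl
    | some k' =>
      rw [m.f_some h, Pi.smul_apply, Geo.e2, single_zero (Geo.inr_gens
        ((m.pos h).2 ▸ mem_image_of_mem _ (show (g.src k.1).y ∈ X from hs)) _) t ht, smul_zero]

variable {m}

theorem nb_iff {x x' : g.P} (hx : m.dep 0 x) (hx' : m.dep 0 x') (a : Fin 4) :
    m.φ x' = m.φ x + stp g'.M (m.y.π a) ↔ x' = x + stp g.M a := by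
  rw [stp, ← m.y.stp]
  exact m.lin hx hx' (m.sm1 a)

theorem nb {x : g.P} {a : Fin 4} (hx : m.dep 0 x) (hx' : m.dep 0 (x + stp g.M a)) :
    m.φ (x + stp g.M a) = m.φ x + stp g'.M (m.y.π a) := (nb_iff hx hx' a).2 rfl

theorem dep_stp {n : ℕ} {x : g.P} (hx : m.dep (n + 1) x) (a : Fin 4) :
    m.dep n (x + stp g.M a) := m.mono hx (by have := tdist_stp x a; omega)

theorem dep0 {n : ℕ} {x : g.P} (hx : m.dep n x) : m.dep 0 x := Iso.le hx (Nat.zero_le _)

theorem Dm_map {x x' : g.P} (hx : m.dep 0 x) (hx' : m.dep 0 x') (a b : Fin 4) :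
    Dm g'.A (m.φ x, m.y.π a) (m.φ x', m.y.π b) =
      m.ε x * m.y.σ a * (m.ε x' * m.y.σ b) * (m.y.o * Dm g.A (x, a) (x', b)) := by
  rw [Dm_eq, Dm_eq, mul_add, mul_add]
  congr 1
  · by_cases h : x = x'
    · subst h
      rw [if_pos rfl, if_pos rfl, m.y.sA]
      linear_combination (-(m.y.o * m.y.σ a * m.y.σ b * sA a b)) * m.εε x
    · rw [if_neg h, if_neg fun e => h (Iso.inj hx hx' e)]
      ring
  · simp only [← m.y.opp, m.y.π.injective.eq_iff, nb_iff hx hx']
    split_ifs with h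
    · obtain ⟨rfl, rfl⟩ := h
      rw [m.gauge hx hx', m.y.sg]
      ring
    · ring

theorem Dm_on {n : ℕ} {x : g.P} (hx : m.dep (n + 1) x) {a : Fin 4} {t' : Tor g'.M × Fin 4}
    (h : Dm g'.A (m.φ x, a) t' ≠ 0) :
    ∃ t : Tor g.M × Fin 4, m.dep n t.1 ∧ (m.φ t.1, m.y.π t.2) = t' := by
  obtain ⟨y, hy, e⟩ := m.onto (Iso.le hx (by omega : 1 ≤ n + 1))
    ((tdist_comm _ _).le.trans (C.Dm_near _ h))
  exact ⟨(y, m.y.π.symm t'.2), m.mono hx (by simp only; omega), by simp [e]⟩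

theorem covP_map {ℓ ℓ' : ℕ} (h : ℓ ≤ ℓ') {x x' : g.P} (hx : m.dep (ℓ' + 3) x)
    (hx' : m.dep (ℓ' + 3) x') (a b : Fin 4) :
    covP (Dm g'.A) ℓ ℓ' (m.φ x, m.y.π a) (m.φ x', m.y.π b) =
      m.ε x * m.y.σ a * (m.ε x' * m.y.σ b) * (m.y.o * covP (Dm g.A) ℓ ℓ' (x, a) (x', b)) := by
  have h1 := covP_local (D := m.y.o • Dm g.A) (D' := Dm g'.A)
    (by rw [transpose_smul, C.Dm_anti, smul_neg]) (C.Dm_anti _)
    (fun s => (m.φ s.1, m.y.π s.2)) (fun s => m.ε s.1 * m.y.σ s.2)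
    (fun s => G.sign_mul (m.sε _) (m.y.sσ _)) (fun n => {s | n ≤ ℓ' + 3 → m.dep (ℓ' + 3 - n) s.1})
    (fun n s hs hn => Iso.le (hs (by omega)) (by omega))
    (fun n s hs t ht hn => m.mono (hs (by omega)) (by
      have := C.Dm_near g.A (right_ne_zero_of_mul ht)
      rw [tdist_comm] at this
      omega)) h
    (fun s hs t ht e => Prod.ext
      (Iso.inj (dep0 (hs (by omega))) (dep0 (ht (by omega))) (congrArg Prod.fst e))
      (m.y.π.injective (congrArg Prod.snd e)))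
    (fun s hs t ht => Dm_map (dep0 (hs (by omega))) (dep0 (ht (by omega))) _ _)
    (fun s hs t' ht' => by
      obtain ⟨t, h1, h2⟩ := Dm_on (n := 1) (Iso.le (hs (by omega)) (by omega)) ht'
      exact ⟨t, fun _ => Iso.le h1 (by omega), h2⟩)
    (s := (x, a)) (t := (x', b)) (fun _ => hx) fun _ => hx'
  rw [h1]
  rcases m.y.so with e | e <;> simp [e, covP_neg]

theorem cov_of {C : Matrix (Tor g.M × Fin 4) (Tor g.M × Fin 4) ℝ}
    {C' : Matrix (Tor g'.M × Fin 4) (Tor g'.M × Fin 4) ℝ} (hC : Cᵀ = -C) (hC' : C'ᵀ = -C')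
    {U : Finset g.P} (h : ∀ x ∈ U, ∀ x' ∈ U, ∀ a b, C' (m.φ x, m.y.π a) (m.φ x', m.y.π b) =
      m.ε x * m.y.σ a * (m.ε x' * m.y.σ b) * (m.y.o * C (x, a) (x', b)))
    {F : g.E} (hF : F ∈ g.el U) : evG (g'.exM C') (m.Φ F) = m.Φ (evG (g.exM C) F) := by
  refine evG_mon m.y.so _ (g.exM_anti hC) (g'.exM_anti hC') hF fun s hs s' hs' => ?_
  rcases s with s | k <;> rcases s' with s' | k'
  · rw [m.f_e1, m.f_e1, mulVec_smul, smul_dotProduct, dotProduct_smul, single_one_dotProduct,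
      mulVec_single_one]
    change _ * (_ * C' _ _) = _ * C _ _
    rw [h s.1 hs s'.1 hs']
    have := m.εε s.1
    have := m.εε s'.1
    have := m.σσ s.2
    have := m.σσ s'.2
    grind
  all_goals
    simp [Geo.exM, dotProduct, mulVec, Fintype.sum_sum_type, f_inr]

theorem Φ_edge {x : g.P} {a : Fin 4} (hx : m.dep 0 x) (hx' : m.dep 0 (x + stp g.M a)) :
    g'.edge (und (m.φ x) (m.y.π a)).1 (und (m.φ x) (m.y.π a)).2 =
      m.Φ (g.edge (und x a).1 (und x a).2) := by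
  rw [Geo.edge_und, Geo.edge_und, map_smul, Φ_pp, f_e1, f_e1, pp_smul_left, pp_smul_right,
    smul_smul, smul_smul, smul_smul, nb hx hx', m.y.opp, m.gauge hx hx', m.y.sg]
  congr 1
  ring

theorem Φ_O1 {x : g.P} (hx : m.dep 1 x) : g'.O1 (m.φ x) = m.Φ (g.O1 x) := by
  rw [Geo.O1_eq, Geo.O1_eq, map_smul, map_sum, ← Equiv.sum_comp m.y.π]
  congr 1
  exact sum_congr rfl fun a _ => Φ_edge (dep0 hx) (dep_stp hx a)

theorem Φ_site (x : g.P) : g'.site (m.φ x) = m.Φ (g.site x) := by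
  rw [Geo.site_eq, Geo.site_eq, map_smul, map_sum, ← Equiv.sum_comp m.y.π]
  congr 1
  refine sum_congr rfl fun a _ => ?_
  rw [map_sum, ← Equiv.sum_comp m.y.π]
  refine sum_congr rfl fun b _ => ?_
  rw [map_smul, Φ_pp, f_e1, f_e1, pp_smul_left, pp_smul_right, smul_smul, smul_smul, smul_smul,
    m.y.sA]
  congr 1
  linear_combination (-(m.y.o * m.y.σ a * m.y.σ b * sA a b)) * m.εε x

theorem Φ_O2 {x : g.P} (hx : m.dep 1 x) : g'.O2 (m.φ x) = m.Φ (g.O2 x) := by
  rw [Geo.O2, Geo.O2, map_add, map_smul, Φ_O1 hx, Φ_site]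

theorem Φ_bv0 {k : g.K} (h : m.κ k = none) : m.Φ (g.bv k) = 0 := by
  rw [Geo.bv, Φ_pp, m.f_none h, pp_zero_left, smul_zero]

theorem Φ_bv1 {k : g.K} {k' : g'.K} (h : m.κ k = some k') :
    m.Φ (g.bv k) = (m.y.o * m.w k 0 * m.w k 1) • g'.bv k' := by
  rw [Geo.bv, Φ_pp, m.f_some h, m.f_some h, pp_smul_left, pp_smul_right, smul_smul, smul_smul,
    Geo.bv]

end FMap

end Vale.Agent.P144Z
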