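import Vale.Agent.P144Z.R6.Agree

/-!
The initial state and the flow commute with the identification of two geometries.
-/

namespace Vale.Agent.P144Z

open Finset Matrix R6

set_option linter.unusedSectionVars false

theorem R6.prj_add (M : ℕ) (u v : ℤ × ℤ) : prj M (u + v) = prj M u + prj M v := by
  simp [prj]

theorem R6.prj_zero (M : ℕ) : prj M (0, 0) = 0 := by simp [prj, Prod.ext_iff]

theorem R6.prj_neg (M : ℕ) (u : ℤ × ℤ) : prj M (-u) = -prj M u := by simp [prj]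

theorem R6.prj_sub (M : ℕ) (u v : ℤ × ℤ) : prj M (u - v) = prj M u - prj M v := by
  simp [prj]

theorem R6.prj_uz (M : ℕ) (i : Fin 2) : prj M (uz i) = uv M i := by
  fin_cases i <;> simp [prj, uz, uv]

theorem R6.sum_marg {ι T E : Type} [Fintype ι] [DecidableEq ι] [Fintype T] [DecidableEq T]
    [CommRing E] (j : T → ι) (hj : Function.Injective j) (w : ι → Bool → E)
    (hw : ∀ e, w e true + w e false = 1) (G : (T → Bool) → E) :
    ∑ n : ι → Bool, G (n ∘ j) * ∏ e, w e (n e) = ∑ m : T → Bool, G m * ∏ t, w (j t) (m t) := by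
  classical
  let e : T ⊕ {x // x ∉ Set.range j} ≃ ι :=
    ((Equiv.ofInjective j hj).sumCongr (Equiv.refl _)).trans (Equiv.sumCompl (· ∈ Set.range j))
  have e1 : ∀ t, e (Sum.inl t) = j t := fun _ => rfl
  rw [← ((Equiv.sumArrowEquivProdArrow _ _ Bool).symm.trans
    (e.arrowCongr (Equiv.refl Bool))).sum_comp, Fintype.sum_prod_type]
  refine sum_congr rfl fun m _ => ?_
  have h1 : ∑ m' : {x // x ∉ Set.range j} → Bool, ∏ x, w (e (Sum.inr x)) (m' x) = 1 := by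
    rw [← Fintype.piFinset_univ, ← prod_univ_sum]
    exact prod_eq_one fun x _ => by rw [Fintype.sum_bool, hw]
  rw [← mul_one (G m * _), ← h1, mul_sum]
  refine sum_congr rfl fun m' _ => ?_
  rw [← e.prod_comp, Fintype.prod_sum_type, mul_assoc]
  congr 2
  · funext t
    simp [← e1]
  · exact prod_congr rfl fun t _ => by simp [← e1]
  · exact prod_congr rfl fun t _ => by simp

theorem R6.pHV_congr {B : Finset (ℤ × ℤ)} {n n' : (ℤ × ℤ) × Fin 2 → Bool}
    (h : ∀ e : (ℤ × ℤ) × Fin 2, e.1 ∈ hull B → e.1 + uz e.2 ∈ hull B → n e = n' e)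
    {a b : ℤ × ℤ} (ha : a ∈ B) (hb : b ∈ B) : pHV n a b = pHV n' a b := by
  have hm : ∀ v : ℤ × ℤ, min a.1 b.1 ≤ v.1 → v.1 ≤ max a.1 b.1 + 1 → min a.2 b.2 ≤ v.2 →
      v.2 ≤ max a.2 b.2 + 1 → v ∈ hull B := fun v h1 h2 h3 h4 =>
    mem_biUnion.2 ⟨(a, b), mem_product.2 ⟨ha, hb⟩,
      mem_product.2 ⟨mem_Icc.2 ⟨h1, h2⟩, mem_Icc.2 ⟨h3, h4⟩⟩⟩
  unfold pHV bond
  congr 1
  · refine prod_congr rfl fun i hi => congrArg sgn (h _ (hm _ ?_ ?_ ?_ ?_) (hm _ ?_ ?_ ?_ ?_)) <;>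
      have := mem_Ico.1 hi <;> simp [uz] <;> omega
  · refine prod_congr rfl fun i hi => congrArg sgn (h _ (hm _ ?_ ?_ ?_ ?_) (hm _ ?_ ?_ ?_ ?_)) <;>
      have := mem_Ico.1 hi <;> simp [uz] <;> omega

theorem R6.spinFn_congr {B : Finset (ℤ × ℤ)} {n n' : (ℤ × ℤ) × Fin 2 → Bool}
    (h : ∀ e : (ℤ × ℤ) × Fin 2, e.1 ∈ hull B → e.1 + uz e.2 ∈ hull B → n e = n' e) :
    spinFn B n = spinFn B n' := by
  unfold spinFn
  congr 1
  refine sum_congr rfl fun a ha => ?_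
  rw [prod_congr rfl fun b hb => pHV_congr h ha hb, prod_congr rfl fun b hb => pHV_congr h hb ha]

namespace Geo

variable {g : Geo}

/-- The edge has both ends in `X`. -/
def Ins (g : Geo) (X : Finset g.P) (e : Tor g.M × Fin 2) : Prop := e.1 ∈ X ∧ e.1 + uv g.M e.2 ∈ X

/-- Functions of the edges inside `X` with values in the local algebra. -/
noncomputable def RI (g : Geo) (X : Finset g.P) : Subalgebra ℝ (g.Cfg → g.E) where
  carrier := {F | (∀ n, F n ∈ g.el X) ∧ ∀ n n', (∀ e, g.Ins X e → n e = n' e) → F n = F n'}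
  mul_mem' h h' := ⟨fun n => Subalgebra.mul_mem _ (h.1 n) (h'.1 n), fun n n' e => by
    rw [Pi.mul_apply, Pi.mul_apply, h.2 n n' e, h'.2 n n' e]⟩
  add_mem' h h' := ⟨fun n => Subalgebra.add_mem _ (h.1 n) (h'.1 n), fun n n' e => by
    rw [Pi.add_apply, Pi.add_apply, h.2 n n' e, h'.2 n n' e]⟩
  algebraMap_mem' r := ⟨fun _ => Subalgebra.algebraMap_mem _ r, fun _ _ _ => rfl⟩

theorem RI_mono {X Y : Finset g.P} (h : X ⊆ Y) {F : g.Cfg → g.E} (hF : F ∈ g.RI X) :
    F ∈ g.RI Y :=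
  ⟨fun n => el_mono h (hF.1 n), fun n n' e => hF.2 n n' fun e' he => e e' ⟨h he.1, h he.2⟩⟩

theorem mem_put {y : g.P} {Y : Finset (ℤ × ℤ)} {v : ℤ × ℤ} (hv : v ∈ Y) :
    y + prj g.M v ∈ g.put y Y := mem_image_of_mem (fun v => y + prj g.M v) hv

theorem self_mem_put {y : g.P} {Y : Finset (ℤ × ℤ)} (hv : (0, 0) ∈ Y) : y ∈ g.put y Y := by
  simpa [prj_zero] using mem_put (g := g) (y := y) hv

theorem ins_put {y : g.P} {Y : Finset (ℤ × ℤ)} {e : (ℤ × ℤ) × Fin 2} (h1 : e.1 ∈ Y)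
    (h2 : e.1 + uz e.2 ∈ Y) : g.Ins (g.put y Y) (y + prj g.M e.1, e.2) :=
  ⟨mem_put h1, by simpa only [prj_add, prj_uz, ← add_assoc] using mem_put (g := g) (y := y) h2⟩

theorem Hin_RI (hg : ∀ k, (g.src k).Ok) (q : Par) (X : Finset g.P) : g.Hin q X ∈ g.RI X := by
  refine ⟨fun n => Subalgebra.add_mem _ (Subalgebra.smul_mem _ (Subalgebra.one_mem _) _)
    (Subalgebra.sum_mem _ fun k hk => Subalgebra.smul_mem _
      (bv_el ((mem_filter.1 hk).2 ▸ self_mem_put (hg k).zero)) _), fun n n' e => ?_⟩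
  unfold Hin
  congr 1
  · congr 1
    refine sum_congr rfl fun y _ => sum_congr rfl fun B hB => ?_
    rw [spinFn_congr (n := g.see y n) (n' := g.see y n') fun e' h1 h2 =>
      e _ ((mem_filter.1 hB).2 ▸ ins_put h1 h2)]
  · refine sum_congr rfl fun k hk => ?_
    rw [(hg k).dep (g.see _ n) (g.see _ n') fun e' h1 h2 =>
      e _ ((mem_filter.1 hk).2 ▸ ins_put h1 h2)]

/-- The weights of the occupation numbers. -/
noncomputable def ew (g : Geo) (w : ℝ) (e : Tor g.M × Fin 2) (b : Bool) : g.E :=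
  if b then w • g.edge e.1 e.2 else 1 - w • g.edge e.1 e.2

theorem ew_sum (w : ℝ) (e : Tor g.M × Fin 2) : g.ew w e true + g.ew w e false = 1 := by
  simp [ew]

open Classical in
/-- The extension by `false`. -/
noncomputable def extd (X : Finset g.P) (m : {e // g.Ins X e} → Bool) : g.Cfg :=
  fun e => if h : g.Ins X e then m ⟨e, h⟩ else false

theorem RI_extd {X : Finset g.P} {F : g.Cfg → g.E} (hF : F ∈ g.RI X) (n : g.Cfg) :
    F n = F (extd X (n ∘ Subtype.val)) := hF.2 _ _ fun e he => by simp [extd, he]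

open Classical in
theorem E0_RI (w : ℝ) {X : Finset g.P} {F : g.Cfg → g.E} (hF : F ∈ g.RI X) :
    g.E0 w F = ∑ m : {e // g.Ins X e} → Bool, F (extd X m) * ∏ t, g.ew w t.1 (m t) := by
  rw [← sum_marg Subtype.val Subtype.val_injective (g.ew w) (ew_sum w) fun m => F (extd X m)]
  exact sum_congr rfl fun n _ => by rw [← RI_extd hF]; rfl

theorem E0_el (w : ℝ) {X : Finset g.P} {F : g.Cfg → g.E} (hF : F ∈ g.RI X) :
    g.E0 w F ∈ g.el X := by
  rw [E0_RI w hF]
  refine Subalgebra.sum_mem _ fun m _ => Subalgebra.mul_mem _ (hF.1 _)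
    (Subalgebra.prod_mem _ fun t _ => ?_)
  have h := Subalgebra.smul_mem _ (edge_el t.2.1 t.2.2) w
  unfold ew
  split_ifs
  · exact h
  · exact Subalgebra.sub_mem _ (Subalgebra.one_mem _) h

theorem W0_el (hg : ∀ k, (g.src k).Ok) (q : Par) (U : Finset g.P) : g.W0 q U ∈ g.el U :=
  Subalgebra.sum_mem _ fun _ hU' => Subalgebra.smul_mem _ (lg_mem (E0_el _ (A2.exp_mem_fin _
    (Subalgebra.sum_mem _ fun X hX => RI_mono ((mem_powerset.1 hX).trans (mem_powerset.1 hU'))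
      (Hin_RI hg q X))))) _

theorem loc_init (hg : ∀ k, (g.src k).Ok) (q : Par) : g.Loc (g.init q) where
  K X := by
    refine Subalgebra.sub_mem _ (Subalgebra.sub_mem _ (W0_el hg q X) (noF_el (W0_el hg q X)))
      (Subalgebra.sum_mem _ fun k hk => ?_)
    unfold z0
    split_ifs with h
    · have h1 := (mem_filter.1 hk).2
      have h2 : g.Ins X (_ + prj g.M (0, 0), (g.src k).dir) :=
        h1 ▸ ins_put (e := ((0, 0), (g.src k).dir)) (hg k).zero (by simp [((hg k).en h).1])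
      rw [prj_zero, add_zero] at h2
      exact Subalgebra.smul_mem _ (Subalgebra.mul_mem _ (bv_el h2.1) (edge_el h2.1 h2.2)) _
    · rw [zero_smul]
      exact Subalgebra.zero_mem _
  v x := Subalgebra.add_mem _ (Subalgebra.smul_mem _ (O1_el x) _)
    (Subalgebra.smul_mem _ (O2_el x) _)

theorem loc_flow (hg : ∀ k, (g.src k).Ok) (L : ℕ) (q : Par) (d : ℕ → ℝ × ℝ) :
    ∀ j, g.Loc (g.flow L q d j)
  | 0 => loc_init hg q
  | j + 1 => (loc_flow hg L q d j).step _ _ _ _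

end Geo

theorem R6.sc_succ (L j : ℕ) : sc L (j + 1) = L * sc L j := by rw [sc, sc, pow_succ]; ring

theorem R6.eight_le_sc {L : ℕ} (hL : 1 ≤ L) (j : ℕ) : 8 ≤ sc L j :=
  Nat.le_mul_of_pos_right 8 (pow_pos hL j)

theorem R6.two_sc_le {L : ℕ} (hL : 2 ≤ L) (j : ℕ) : 2 * sc L j ≤ sc L (j + 1) := by
  rw [sc_succ]; exact Nat.mul_le_mul_right _ hL

namespace Agree

variable {g g' : Geo} {a : Agree g g'}

/-- The identification is compatible with the microscopic interaction. -/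
structure Ini (a : Agree g g') (q : Par) where
  η : Tor g.M × Fin 2 → Tor g'.M × Fin 2
  ok : ∀ k, (g.src k).Ok
  ok' : ∀ k, (g'.src k).Ok
  edge : ∀ {e : Tor g.M × Fin 2}, a.dep 0 e.1 → a.dep 0 (e.1 + uv g.M e.2) →
    g'.edge (η e).1 (η e).2 = a.Φ (g.edge e.1 e.2)
  inj : ∀ {X e e'}, a.In 0 X → g.Ins X e → g.Ins X e' → η e = η e' → e = e'
  hin : ∀ {X}, a.In 0 X → ∀ n', g'.Hin q (X.image a.φ) n' = a.Φ (g.Hin q X (n' ∘ η))
  put : ∀ {k k' X}, a.κ k = some k' → a.In 0 X →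
    (g'.put (g'.src k').y (g'.src k').Y = X.image a.φ ↔ g.put (g.src k).y (g.src k).Y = X)
  s1 : ∀ {k k'}, a.κ k = some k' → a.s k = 1

variable (a) in
/-- The identification as a homomorphism of monoids. -/
noncomputable def hom : g.E →* g'.E := ⟨⟨a.Φ, a.one⟩, a.mul⟩

variable {q : Par}

/-- The identification of functions of the contours. -/
noncomputable def Ini.Φ₀ (b : a.Ini q) : (g.Cfg → g.E) →ₗ[ℝ] (g'.Cfg → g'.E) where
  toFun F n' := a.Φ (F (n' ∘ b.η))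
  map_add' F G := by funext n'; simp
  map_smul' c F := by funext n'; simp

theorem Ini.E0 (b : a.Ini q) (w : ℝ) {X : Finset g.P} (hX : a.In 0 X) {F : g.Cfg → g.E}
    (hF : F ∈ g.RI X) : g'.E0 w (b.Φ₀ F) = a.Φ (g.E0 w F) := by
  classical
  have h1 := sum_marg (fun t : {e // g.Ins X e} => b.η t.1)
    (fun t t' e => Subtype.ext (b.inj hX t.2 t'.2 e)) (g'.ew w) (Geo.ew_sum w)
    fun m => a.Φ (F (Geo.extd X m))
  rw [Geo.E0_RI w hF, map_sum]
  refine Eq.trans ?_ (h1.trans (sum_congr rfl fun m _ => ?_))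
  · exact sum_congr rfl fun n' _ => congrArg₂ _ (congrArg a.Φ (Geo.RI_extd hF _)) rfl
  · rw [a.mul]
    congr 1
    refine Eq.trans (prod_congr rfl fun t _ => ?_) (map_prod a.hom _ _).symm
    change _ = a.Φ _
    unfold Geo.ew
    split_ifs
    · rw [map_smul, b.edge (hX _ t.2.1) (hX _ t.2.2)]
    · rw [map_sub, map_smul, a.one, b.edge (hX _ t.2.1) (hX _ t.2.2)]

theorem Ini.W0 (b : a.Ini q) {U : Finset g.P} (hU : a.In 0 U) :
    g'.W0 q (U.image a.φ) = a.Φ (g.W0 q U) :=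
  Cl_hom _ _ b.Φ₀ (funext fun _ => a.one) (fun _ _ => funext fun _ => a.mul _ _) a.Φ a.one a.mul
    a.φ U hU.injOn (g.RI U) (fun _ hF => b.E0 _ hU hF) _ _
    (fun X hX => Geo.RI_mono hX (Geo.Hin_RI b.ok q X))
    fun _ hX => funext fun n' => b.hin (hU.sub hX) n'

theorem Ini.z0 (b : a.Ini q) {k : g.K} {k' : g'.K} (e : a.κ k = some k') :
    g'.z0 q k' = a.s k * g.z0 q k := by
  rw [b.s1 e, one_mul, Geo.z0, Geo.z0, a.on e]

theorem Ini.init (b : a.Ini q) : a.Rel 1 (g.init q) (g'.init q) where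
  loc := Geo.loc_init b.ok q
  K X hX := by
    have h0 : a.In 0 X := hX.le (by omega)
    simp only [Geo.init]
    rw [map_sub, map_sub, b.W0 h0, a.noF, sum_src hX
      (fun k e => by rw [← e]; exact Geo.self_mem_put (b.ok k).zero)
      (fun k e => by rw [← e]; exact Geo.self_mem_put (b.ok' k).zero)
      (fun k k' e _ => b.put e h0) fun k k' e _ => b.z0 e]
  v x hx := by
    simp only [Geo.init]
    rw [map_add, map_smul, map_smul, a.O1 hx, a.O2 hx]
  z _ _ e _ := b.z0 e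

theorem Rel.succ {L j : ℕ} (hL : 2 ≤ L) {t : g.St} {t' : g'.St} (h : a.Rel (2 * sc L j) t t')
    (hJ : a.SameJ j) (d : ℝ × ℝ) : a.Rel (2 * sc L (j + 1))
      (g.step j (sc L j) (sc L (j + 1)) d t) (g'.step j (sc L j) (sc L (j + 1)) d t') := by
  have h1 := eight_le_sc (by omega : 1 ≤ L) j
  have h2 := two_sc_le hL j
  exact ((h.le (n := sc L (j + 1) + 3) (by omega)).step hJ (by omega) (by omega) le_rfl d).le
    (by omega)

theorem Ini.flow (b : a.Ini q) {L : ℕ} (hL : 2 ≤ L) (d : ℕ → ℝ × ℝ) :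
    ∀ j, (∀ i < j, a.SameJ i) → a.Rel (2 * sc L j) (g.flow L q d j) (g'.flow L q d j)
  | 0, _ => b.init.le (by have := eight_le_sc (by omega : 1 ≤ L) 0; omega)
  | j + 1, h => (b.flow hL d j fun i hi => h i (by omega)).succ hL (h j (by omega)) (d j)

theorem Rel.rem' {L j : ℕ} (hL : 2 ≤ L) {t : g.St} {t' : g'.St} (h : a.Rel (2 * sc L j) t t')
    {U : Finset g.P} (hU : a.In (sc L (j + 1) + 3) U) :
    g'.intg (sc L j) (sc L (j + 1)) t' (U.image a.φ) =
        a.Φ (g.intg (sc L j) (sc L (j + 1)) t U) ∧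
      g'.rem (sc L j) (sc L (j + 1)) t' (U.image a.φ) =
        a.Φ (g.rem (sc L j) (sc L (j + 1)) t U) := by
  have h2 := two_sc_le hL j
  have h3 := h.le (n := sc L (j + 1) + 3) (by omega)
  exact ⟨h3.intg (by omega) le_rfl hU, h3.rem (by omega) le_rfl hU⟩

theorem Rel.out' {L j : ℕ} (hL : 2 ≤ L) {t : g.St} {t' : g'.St} (h : a.Rel (2 * sc L j) t t')
    {x : g.P} (hx : a.dep (2 * sc L (j + 1)) x) :
    g'.out (sc L j) (sc L (j + 1)) t' (a.φ x) = a.Φ (g.out (sc L j) (sc L (j + 1)) t x) := by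
  have h1 := eight_le_sc (by omega : 1 ≤ L) j
  have h2 := two_sc_le hL j
  exact (h.le (n := sc L (j + 1) + 3) (by omega)).out (by omega) le_rfl (Iso.le hx (by omega))

theorem Ini.cst (b : a.Ini q) {L j : ℕ} (hL : 2 ≤ L) (hJ : ∀ i < j, a.SameJ i) {U : Finset g.P}
    (hU : a.In (sc L (j + 1) + 3) U) : g'.cst L q j (U.image a.φ) = a.Φ (g.cst L q j U) := by
  rw [Geo.cst, Geo.cst, ((b.flow hL 0 j hJ).rem' hL hU).1, a.noF]

end Agree

end Vale.Agent.P144Z
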