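import Vale.Agent.P144Z.R6.FIni
import Vale.Agent.P144Z.Top

/-!
The identifications of squares: translations with a change of gauge, rotations, reflections.
-/

namespace Vale.Agent.P144Z

open Finset Matrix R6

set_option linter.unusedSectionVars false

namespace R6

variable {M M' : ℕ} [NeZero M] [NeZero M']

theorem prj_eq_zero {w : ℤ × ℤ} (h1 : w.1.natAbs < M) (h2 : w.2.natAbs < M) :
    prj M w = 0 ↔ w = 0 := by
  refine ⟨fun h => ?_, fun h => by rw [h]; exact prj_zero M⟩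
  have e1 := (ZMod.intCast_zmod_eq_zero_iff_dvd _ _).1 (congrArg Prod.fst h)
  have e2 := (ZMod.intCast_zmod_eq_zero_iff_dvd _ _).1 (congrArg Prod.snd h)
  exact Prod.ext (Int.eq_zero_of_dvd_of_natAbs_lt_natAbs e1 h1)
    (Int.eq_zero_of_dvd_of_natAbs_lt_natAbs e2 h2)

theorem Sy.max_eq (y : Sy) (w : ℤ × ℤ) :
    max (y.T w).1.natAbs (y.T w).2.natAbs = max w.1.natAbs w.2.natAbs := by
  have h1 := (y.box w (max w.1.natAbs w.2.natAbs : ℕ)).2 (by simp only [abs_le]; omega)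
  have h2 := (y.box w (max (y.T w).1.natAbs (y.T w).2.natAbs : ℕ)).1 (by simp only [abs_le]; omega)
  simp only [abs_le] at h1 h2
  omega

/-- The map of the square around `c` to the square around `c'`. -/
def bφ (y : Sy) (c : Tor M) (c' : Tor M') (x : Tor M) : Tor M' := c' + prj M' (y.T (lft (x - c)))

/-- Vectors that are small for both tori. -/
def Sm (M M' : ℕ) (v : ℤ × ℤ) : Prop := 2 * max v.1.natAbs v.2.natAbs ≤ min M M'

theorem bφ_self (y : Sy) (c : Tor M) (c' : Tor M') : bφ y c c' c = c' := by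
  have : lft (0 : Tor M) = 0 := by simp [lft]
  rw [bφ, sub_self, this, map_zero, G.prj_zero, add_zero]

theorem shf_self (c x : Tor M) : shf c c x = x := G.add_prj_lft x c

variable {y : Sy} {c : Tor M} {c' : Tor M'} {r : ℕ} (hr : 4 * r + 1 ≤ M) (hr' : 4 * r + 1 ≤ M')
include hr hr'

theorem bφ_lin {x x' : Tor M} (hx : tdist x c ≤ r) (hx' : tdist x' c ≤ r) {v : ℤ × ℤ}
    (hv : Sm M M' v) : bφ y c c' x' = bφ y c c' x + prj M' (y.T v) ↔ x' = x + prj M v := by
  have e1 := G.add_prj_lft x c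
  have e2 := G.add_prj_lft x' c
  rw [G.tdist_def] at hx hx'
  rw [bφ, bφ]
  generalize lft (x - c) = u at *
  generalize lft (x' - c) = u' at *
  have h1 := y.max_eq (u' - (u + v))
  have h2 : max (u' - (u + v)).1.natAbs (u' - (u + v)).2.natAbs < min M M' := by
    have a : ∀ p q s : ℤ, p.natAbs ≤ r → q.natAbs ≤ r → 2 * s.natAbs ≤ min M M' →
        (p - (q + s)).natAbs < min M M' := fun p q s _ _ _ => by omega
    rw [Sm] at hv
    exact max_lt (a _ _ _ (max_le_iff.1 hx').1 (max_le_iff.1 hx).1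
      ((Nat.mul_le_mul_left 2 (le_max_left _ _)).trans hv))
      (a _ _ _ (max_le_iff.1 hx').2 (max_le_iff.1 hx).2
        ((Nat.mul_le_mul_left 2 (le_max_right _ _)).trans hv))
  rw [← e1, ← e2, add_assoc, add_assoc, add_right_inj, add_right_inj, ← prj_add, ← prj_add,
    ← map_add, ← sub_eq_zero, ← prj_sub, ← map_sub, ← sub_eq_zero (a := prj M u'), ← prj_sub]
  generalize u' - (u + v) = w at h1 h2 ⊢
  clear hx hx' hr hr' hv
  rw [prj_eq_zero (by omega) (by omega), prj_eq_zero (by omega) (by omega),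
    map_eq_zero_iff _ y.T.injective]

theorem bφ_lft {x x' : Tor M} (hx : tdist x c ≤ r) (hx' : tdist x' c ≤ r) :
    lft (bφ y c c' x' - bφ y c c' x) = y.T (lft (x' - x)) := by
  have h1 : tdist x' x ≤ 2 * r := by
    have := tdist_triangle x' c x
    rw [tdist_comm c] at this
    omega
  rw [G.tdist_def] at h1
  have h2 := y.max_eq (lft (x' - x))
  rw [(bφ_lin hr hr' hx hx' (v := lft (x' - x)) (by rw [Sm]; omega)).2 (G.add_prj_lft x' x).symm,
    add_sub_cancel_left]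
  refine lft_prj ?_ ?_ <;> rw [← Int.natCast_natAbs] <;> omega

theorem sm_stz (h1 : 1 ≤ r) (a : Fin 4) : Sm M M' (stz a) := by
  fin_cases a <;> simp [Sm, stz] <;> omega

variable (y c c') in
/-- The local isometry. -/
def ballIso (h1 : 1 ≤ r) : Iso M M' where
  dep n x := tdist x c + n ≤ r
  φ := bφ y c c'
  mono {n m x z} hx h := by
    have := tdist_triangle z x c
    omega
  iso hx hz := by rw [G.tdist_def, bφ_lft hr hr' hz hx, y.max_eq, G.tdist_def]
  onto {n x z} hx h := by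
    rw [G.tdist_def] at h
    have h2 := y.max_eq (y.T.symm (lft (z - bφ y c c' x)))
    rw [y.T.apply_symm_apply] at h2
    have h3 := (G.tdist_add_prj_le x (y.T.symm (lft (z - bφ y c c' x)))).trans (h2 ▸ h)
    refine ⟨_, h3, ?_⟩
    have h4 := tdist_triangle (x + prj M (y.T.symm (lft (z - bφ y c c' x)))) x c
    rw [(bφ_lin hr hr' (by omega) (by omega) (by rw [Sm]; omega)).2 rfl, y.T.apply_symm_apply,
      G.add_prj_lft]
  star {x} hx := star_image _ y.π fun a => by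
    have h2 := tdist_triangle (x + stp M a) x c
    have h3 := tdist_stp x a
    rw [stp, stp, ← y.stp]
    exact (bφ_lin hr hr' (by omega) (by rw [← stp]; omega) (sm_stz hr hr' h1 a)).2 rfl

end R6

namespace FMap

variable {g g' : Geo}

/-- The monomial map of a square. -/
noncomputable def ball (y : Sy) (c : g.P) (c' : g'.P) {r : ℕ} (hr : 4 * r + 1 ≤ g.M)
    (hr' : 4 * r + 1 ≤ g'.M) (h1 : 1 ≤ r) {ε : g.P → ℝ} (hε : IsSign ε)
    (hA : ∀ x a, tdist x c ≤ r → tdist (x + stp g.M a) c ≤ r →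
      g'.A (und (bφ y c c' x) (y.π a)) = ε x * ε (x + stp g.M a) * g.A (und x a))
    (κ : g.K → Option g'.K)
    (pos : ∀ k k', κ k = some k' → tdist (g.src k).y c ≤ r ∧ (g'.src k').y = bφ y c c' (g.src k).y)
    (kinj : ∀ k k₂ k', κ k = some k' → κ k₂ = some k' → k = k₂) : FMap g g' where
  toIso := ballIso y c c' hr hr' h1
  y := y
  ε := ε
  sm := Sm g.M g'.M
  κ := κ
  w _ i := if i = 0 then y.o else 1
  sε := hε
  sm1 := sm_stz hr hr' h1
  lin hx hx' hv := bφ_lin hr hr' hx hx' hv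
  gauge := hA _ _
  pos := pos _ _
  kinj := kinj _ _ _

end FMap

theorem R6.trans_one {M : ℕ} (x y : Tor M) : trans (1 : Gauge M) x y = 1 := by simp [trans, line]

theorem R6.flux_one {M : ℕ} (f : Tor M) : flux (1 : Gauge M) f = 1 := by simp [flux]

theorem R6.shf_uv {M M' : ℕ} [NeZero M] {c f : Tor M} (c' : Tor M') {T : ℕ} (hT : 2 * T + 3 ≤ M)
    (hf : tdist f c ≤ T) (i : Fin 2) : shf c c' (f + uv M i) = shf c c' f + uv M' i := by
  have e : lft (f + uv M i - c) = lft (f - c) + uz i := by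
    have h := G.lft_bound hf
    conv_lhs => rw [← G.add_prj_lft f c, ← prj_uz, add_assoc, ← prj_add]
    have h' : |(uz i).1| ≤ 1 ∧ |(uz i).2| ≤ 1 := by fin_cases i <;> simp [uz]
    have h1 := abs_add_le (lft (f - c)).1 (uz i).1
    have h2 := abs_add_le (lft (f - c)).2 (uz i).2
    exact G.lft_add_sub c (by rw [Prod.fst_add]; omega) (by rw [Prod.snd_add]; omega)
  rw [shf, shf, e, prj_add, prj_uz, add_assoc]

/-- Equal fluxes give equivalent gauge fields. -/
theorem R6.match_gauge {g g' : Geo} {c : g.P} {c' : g'.P} {T : ℕ} (hA : IsSign g.A)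
    (hA' : IsSign g'.A) (hm : Geo.Match g g' c c' T) (hT : 1 ≤ T) : ∃ ε : g.P → ℝ, IsSign ε ∧
      ∀ x i, tdist x c ≤ T → tdist (x + uv g.M i) c ≤ T →
        g'.A (shf c c' x, i) = ε x * ε (x + uv g.M i) * g.A (x, i) := by
  let B : Gauge g.M := fun e => g'.A (shf c c' e.1, e.2) * g.A e
  have hB : IsSign B := fun e => G.sign_mul (hA' _) (hA _)
  have h2 : 2 * T + 3 ≤ g.M := by have := hm.le; omega
  have hF : Flat B c T := fun f hf => by
    have e := hm.fl f hf
    have s : flux g.A f * flux g.A f = 1 := by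
      have := G.sign_sq hA (f, 0)
      have := G.sign_sq hA (f, 1)
      have := G.sign_sq hA (f + uv g.M 0, 1)
      have := G.sign_sq hA (f + uv g.M 1, 0)
      rw [flux]
      grind
    rw [← s]
    nth_rewrite 1 [← e]
    simp only [flux, B, shf_uv c' h2 hf]
    ring
  refine ⟨trans B c, trans_sign hB c, fun x i hx hx' => ?_⟩
  rw [trans_gauge hB h2 hF hx hx']
  have := G.sign_sq (trans_sign hB c) x
  have := G.sign_sq hA (x, i)
  simp only [B] at *
  grind

/-- The data of an identification of the squares of radius `T`. -/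
structure R6.Id {g g' : Geo} (q : Par) (y : Sy) (c : g.P) (c' : g'.P) (T : ℕ)
    (κ : g.K → Option g'.K) (m : FMap g g') : Prop where
  good : m.Good
  ini : m.GoodI q
  hy : m.y = y
  hφ : m.φ = bφ y c c'
  dep : ∀ n x, m.dep n x ↔ tdist x c + n ≤ T
  hκ : m.κ = κ

/-- The correspondence of the sources. -/
structure R6.Srcs {g g' : Geo} (y : Sy) (c : g.P) (c' : g'.P) (T : ℕ) (κ : g.K → Option g'.K) :
    Prop where
  pos : ∀ k k', κ k = some k' → tdist (g.src k).y c ≤ T ∧ (g'.src k').y = bφ y c c' (g.src k).y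
  kinj : ∀ k k₂ k', κ k = some k' → κ k₂ = some k' → k = k₂
  surj : ∀ k', ∃ k, κ k = some k'
  on : ∀ k k', κ k = some k' → (g'.src k').on = (g.src k).on
  dir : ∀ k k', κ k = some k' → dr (g'.src k').dir = y.π (dr (g.src k).dir)
  sm : ∀ k k', κ k = some k' → ∀ v ∈ (g.src k).Y, Sm g.M g'.M v
  Y : ∀ k k', κ k = some k' → (g'.src k').Y = (g.src k).Y.image y.T
  O : ∀ k k', κ k = some k' → ∀ n,
    (g'.src k').O n = (g.src k).O fun e => n (undz (y.T e.1) (y.π (dr e.2)))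

theorem R6.srcs_none {g g' : Geo} [IsEmpty g'.K] (y : Sy) (c : g.P) (c' : g'.P) (T : ℕ) :
    Srcs y c c' T fun _ => none := by
  refine ⟨?_, ?_, fun k => isEmptyElim k, ?_, ?_, ?_, ?_, ?_⟩ <;> simp

section

variable {g g' : Geo} {q : Par} {c : g.P} {c' : g'.P} {T : ℕ} {κ : g.K → Option g'.K}

theorem R6.goodI_ball {y : Sy} (hg : ∀ k, (g.src k).Ok) (hg' : ∀ k, (g'.src k).Ok)
    (hq : P144.IsPotential q.V) (hR : 2 * (q.R + 1) ≤ g.M) (hR' : 2 * (q.R + 1) ≤ g'.M)
    (hs : Srcs y c c' T κ) {hr hr' h1} {ε : g.P → ℝ} {hε : IsSign ε} {hA} :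
    (FMap.ball y c c' hr hr' h1 hε hA κ hs.pos hs.kinj).GoodI q where
  ok := hg
  ok' := hg'
  pot := hq
  smR v hv := by
    change Sm _ _ _
    simp only [abs_le, Sm] at hv ⊢
    omega
  smY := hs.sm _ _
  Y := hs.Y _ _
  O := hs.O _ _
  s1 _ := by
    change y.o * y.o * 1 = 1
    rcases y.so with h | h <;> simp [h]

theorem R6.gauge_stp (hr : 4 * T + 1 ≤ g.M) (hr' : 4 * T + 1 ≤ g'.M) (hT : 1 ≤ T) {ε : g.P → ℝ}
    (h : ∀ x i, tdist x c ≤ T → tdist (x + uv g.M i) c ≤ T →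
      g'.A (shf c c' x, i) = ε x * ε (x + uv g.M i) * g.A (x, i))
    (x : g.P) (a : Fin 4) (hx : tdist x c ≤ T) (hx' : tdist (x + stp g.M a) c ≤ T) :
    g'.A (und (bφ syId c c' x) (syId.π a)) = ε x * ε (x + stp g.M a) * g.A (und x a) := by
  have e : shf c c' (x + stp g.M a) = shf c c' x + stp g'.M a :=
    (bφ_lin (y := syId) hr hr' hx hx' (sm_stz hr hr' hT a)).2 rfl
  change g'.A (und (shf c c' x) a) = _
  fin_cases a
  · exact stp_zero ▸ h x 0 hx (stp_zero ▸ hx')
  · exact stp_one ▸ h x 1 hx (stp_one ▸ hx')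
  · have := h (x + stp g.M 2) 0 hx' (by simpa [stp_two] using hx)
    simp only [Fin.reduceFinMk, stp_two] at e this ⊢
    rw [e, neg_add_cancel_right, mul_comm (ε _)] at this
    simpa [und, sub_eq_add_neg] using this
  · have := h (x + stp g.M 3) 1 hx' (by simpa [stp_three] using hx)
    simp only [Fin.reduceFinMk, stp_three] at e this ⊢
    rw [e, neg_add_cancel_right, mul_comm (ε _)] at this
    simpa [und, sub_eq_add_neg] using this

/-- Translation with a change of gauge. -/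
theorem R6.exists_tr (hg : g.Ok) (hg' : g'.Ok) (hq : P144.IsPotential q.V)
    (hR : 2 * (q.R + 1) ≤ g.M) (hR' : 2 * (q.R + 1) ≤ g'.M) (hm : Geo.Match g g' c c' T)
    (hT : 1 ≤ T) (hs : Srcs syId c c' T κ) : ∃ m : FMap g g', Id q syId c c' T κ m ∧
      ∀ x i, tdist x c ≤ T → tdist (x + uv g.M i) c ≤ T →
        g'.A (shf c c' x, i) = m.ε x * m.ε (x + uv g.M i) * g.A (x, i) := by
  obtain ⟨ε, hε, h⟩ := match_gauge hg.sign hg'.sign hm hT
  let m := FMap.ball syId c c' hm.le hm.le' hT hε (gauge_stp hm.le hm.le' hT h) κ hs.pos hs.kinj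
  have hd : ∀ {ℓ x y}, m.dep (ℓ + 1) x → tdist y x ≤ ℓ → tdist y c ≤ T := fun hx hy =>
    m.mono (m := 0) hx (by omega)
  refine ⟨m, ⟨⟨fun {r x} hx => ⟨fun h1 f hf => ?_, fun h1 f' hf => ?_⟩, fun hx hy => ?_,
    fun hx hy => bφ_lft hm.le hm.le' (FMap.dep0 hx) (hd hx hy), hs.on _ _, hs.dir _ _,
    fun _ _ => hs.surj _⟩, goodI_ball hg.src hg'.src hq hR hR' hs, rfl, rfl, fun _ _ => Iff.rfl,
    rfl⟩, h⟩
  · rw [← hm.fl f (hd hx hf)]
    exact h1 _ ((m.iso (hd hx hf) (FMap.dep0 hx)).le.trans hf)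
  · obtain ⟨f, hf', rfl⟩ := m.onto (Iso.le hx (Nat.le_succ r)) hf
    exact (hm.fl f (hd hx hf')).trans (h1 f hf')
  · exact trans_iso hm.le hm.le' hε h (FMap.dep0 hx) (hd hx hy)

/-- Point symmetries, without gauge field. -/
theorem R6.exists_sym (y : Sy) (hA : g.A = 1) (hA' : g'.A = 1) (hg : ∀ k, (g.src k).Ok)
    (hg' : ∀ k, (g'.src k).Ok) (hq : P144.IsPotential q.V) (hR : 2 * (q.R + 1) ≤ g.M)
    (hR' : 2 * (q.R + 1) ≤ g'.M) (hr : 4 * T + 1 ≤ g.M) (hr' : 4 * T + 1 ≤ g'.M) (hT : 1 ≤ T)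
    (hs : Srcs y c c' T κ) : ∃ m : FMap g g', Id q y c c' T κ m := by
  let m := FMap.ball y c c' hr hr' hT (ε := fun _ => 1) (fun _ => Or.inl rfl)
    (fun _ _ _ _ => by simp [hA, hA']) κ hs.pos hs.kinj
  refine ⟨m, ⟨fun _ => ?_, fun _ _ => ?_, fun hx hy => bφ_lft hr hr' (FMap.dep0 hx)
    (m.mono (m := 0) hx (by omega)), hs.on _ _, hs.dir _ _, fun _ _ => hs.surj _⟩,
    goodI_ball hg hg' hq hR hR' hs, rfl, rfl, fun _ _ => Iff.rfl, rfl⟩
  · simp [Flat, hA, hA', flux_one]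
  · rw [hA, hA', trans_one, trans_one]
    change 1 = 1 * 1 * 1
    norm_num

end

end Vale.Agent.P144Z
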