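import Vale.Agent.P144Z.Ising
import Vale.Agent.P144Z.A1.Main
import Vale.Agent.P144Z.A2.Main
import Vale.Agent.P144Z.G.Main

/-!
Locality of the terms of the flow.
-/

namespace Vale.Agent.P144Z

open Finset Matrix

set_option linter.unusedSectionVars false

namespace R6

theorem self_mem_star {M : ℕ} (x : Tor M) : x ∈ star x := by simp [star]

theorem add_mem_star {M : ℕ} (x : Tor M) (i : Fin 2) : x + uv M i ∈ star x := by
  fin_cases i <;> simp [star]

theorem sub_mem_star {M : ℕ} (x : Tor M) (i : Fin 2) : x - uv M i ∈ star x := by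
  fin_cases i <;> simp [star]

theorem star_subset_plus {M : ℕ} {U : Finset (Tor M)} {x : Tor M} (hx : x ∈ U) :
    star x ⊆ plus U := subset_biUnion_of_mem star hx

theorem subset_plus {M : ℕ} (U : Finset (Tor M)) : U ⊆ plus U := fun x hx =>
  star_subset_plus hx (self_mem_star x)

theorem mem_ball {M : ℕ} [NeZero M] {x z : Tor M} {r : ℕ} : x ∈ ball z r ↔ tdist x z ≤ r := by
  simp [ball]

section

variable {S S' : Type} [Fintype S] [DecidableEq S] [Fintype S'] [DecidableEq S']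

theorem mem_evLoc {T : Set S} {F : Ev S} : F ∈ evLoc T ↔ Ev.val F ∈ loc T := Iff.rfl

theorem pp_mem {T : Set S} {δ δ' : S → ℝ} (h : ∀ s ∉ T, δ s = 0) (h' : ∀ s ∉ T, δ' s = 0) :
    pp δ δ' ∈ evLoc T := by
  rw [mem_evLoc, val_pp]
  exact Subalgebra.mul_mem _ (psi_mem_loc h) (psi_mem_loc h')

theorem single_zero {T : Set S} {s : S} (hs : s ∈ T) : ∀ t ∉ T, (Pi.single s 1 : S → ℝ) t = 0 :=
  fun t ht => Pi.single_eq_of_ne (fun h : t = s => ht (h ▸ hs)) _

theorem evMap_res_mem {T : Set S} (W : Set S) {F : Ev S} (hF : F ∈ evLoc T) :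
    evMap (res W) F ∈ evLoc T := by
  rw [mem_evLoc, val_evMap]
  refine map_loc hF fun s hs t ht => ?_
  change (open Classical in if t ∈ W then (Pi.single s 1 : S → ℝ) t else 0) = 0
  rw [single_zero hs t ht, ite_self]

theorem evG_mem {T : Set S} (C : Matrix S S ℝ) {F : Ev S} (hF : F ∈ evLoc T) :
    evG C F ∈ evLoc T := by
  rw [mem_evLoc, val_evG]
  exact gauss_loc C hF

theorem evMap_one (f : (S → ℝ) →ₗ[ℝ] (S' → ℝ)) : evMap f 1 = 1 :=
  Ev.val_injective (by rw [val_evMap, map_one, map_one, map_one])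

theorem evMap_mul (f : (S → ℝ) →ₗ[ℝ] (S' → ℝ)) (F G : Ev S) :
    evMap f (F * G) = evMap f F * evMap f G :=
  Ev.val_injective (by simp only [val_evMap, map_mul])

theorem evMap_pp (f : (S → ℝ) →ₗ[ℝ] (S' → ℝ)) (δ δ' : S → ℝ) :
    evMap f (pp δ δ') = pp (f δ) (f δ') :=
  Ev.val_injective (by simp only [val_evMap, val_pp, map_mul, A1.map_psi])

end

end R6

open R6

namespace Geo

variable {g : Geo}

/-- The elements that only involve the generators located in `X`. -/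
noncomputable abbrev el (g : Geo) (X : Finset g.P) : Subalgebra ℝ g.E := evLoc (g.gens X)

theorem el_mono {X Y : Finset g.P} (h : X ⊆ Y) {F : g.E} (hF : F ∈ g.el X) : F ∈ g.el Y :=
  A1.loc_mono (T := g.gens X) (T' := g.gens Y) (fun _ hs => h hs) hF

theorem sub_le_el {X : Finset g.P} {F : g.E} (hF : F ∈ g.sub X) : F ∈ g.el X := hF.1

theorem inl_gens {X : Finset g.P} {x : g.P} (hx : x ∈ X) (a : Fin 4) :
    (Sum.inl (x, a) : g.S) ∈ g.gens X := hx

theorem inr_gens {X : Finset g.P} {k : g.K} (hk : (g.src k).y ∈ X) (i : Fin 2) :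
    (Sum.inr (k, i) : g.S) ∈ g.gens X := hk

theorem noF_el {X : Finset g.P} {F : g.E} (hF : F ∈ g.el X) : g.noF F ∈ g.el X :=
  evMap_res_mem _ hF

theorem noB_el {X : Finset g.P} {F : g.E} (hF : F ∈ g.el X) : g.noB F ∈ g.el X :=
  evMap_res_mem _ hF

theorem edge_el {X : Finset g.P} {x : g.P} {i : Fin 2} (hx : x ∈ X) (hx' : x + uv g.M i ∈ X) :
    g.edge x i ∈ g.el X :=
  Subalgebra.smul_mem _ (pp_mem (single_zero (inl_gens hx _)) (single_zero (inl_gens hx' _))) _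

theorem bv_el {X : Finset g.P} {k : g.K} (hk : (g.src k).y ∈ X) : g.bv k ∈ g.el X :=
  pp_mem (single_zero (inr_gens hk _)) (single_zero (inr_gens hk _))

theorem O1_el (x : g.P) : g.O1 x ∈ g.el (star x) :=
  Subalgebra.smul_mem _ (Subalgebra.sum_mem _ fun i _ => Subalgebra.add_mem _
    (edge_el (self_mem_star x) (add_mem_star x i))
    (edge_el (sub_mem_star x i) (by simpa using self_mem_star x))) _

theorem site_el {X : Finset g.P} {x : g.P} (hx : x ∈ X) : g.site x ∈ g.el X := by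
  refine Subalgebra.sum_mem _ fun a _ => Subalgebra.sum_mem _ fun b _ => ?_
  split_ifs
  · exact pp_mem (single_zero (inl_gens hx _)) (single_zero (inl_gens hx _))
  · exact Subalgebra.zero_mem _

theorem O2_el (x : g.P) : g.O2 x ∈ g.el (star x) :=
  Subalgebra.add_mem _ (site_el (self_mem_star x)) (Subalgebra.smul_mem _ (O1_el x) _)

theorem ex_off {X : Finset g.P} {δ : Tor g.M × Fin 4 → ℝ} (h : ∀ s, s.1 ∉ X → δ s = 0) :
    ∀ s ∉ g.gens X, g.ex δ s = 0 := by
  rintro (s | s) hs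
  · exact h s hs
  · rfl

theorem fld_off {X : Finset g.P} {x : g.P} (hx : x ∈ X) (a : Fin 2) :
    ∀ s : Tor g.M × Fin 4, s.1 ∉ X → fld x a s = 0 := fun s hs =>
  if_neg fun h : s.1 = x => hs (h ▸ hx)

theorem Ext_el (x : g.P) (F : g.E) : g.Ext x F ∈ g.el (star x) := by
  refine Subalgebra.add_mem _ (Subalgebra.add_mem _ (Subalgebra.smul_mem _ (O1_el x) _)
    (Subalgebra.smul_mem _ (O2_el x) _)) (Subalgebra.sum_mem _ fun a _ =>
      Subalgebra.sum_mem _ fun b _ => Subalgebra.sum_mem _ fun i _ => Subalgebra.smul_mem _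
        (pp_mem (ex_off (fld_off (self_mem_star x) a)) (ex_off fun s hs => ?_)) _)
  simp [dfld, fld_off (add_mem_star x i) b s hs, fld_off (sub_mem_star x i) b s hs]

theorem bE_el (k : g.K) : g.bE k ∈ g.el (star (g.src k).y) :=
  Subalgebra.mul_mem _ (bv_el (self_mem_star _)) (edge_el (self_mem_star _) (add_mem_star _ _))

/-- The terms of the state are local. -/
structure Loc (g : Geo) (s : g.St) : Prop where
  K : ∀ X, s.K X ∈ g.el X
  v : ∀ x, s.v x ∈ g.el (star x)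

theorem Wf.loc {s : g.St} (h : g.Wf s) : g.Loc s := ⟨fun X => (h.Kmem X).1, fun x => (h.vmem x).1⟩

theorem Loc.car {s : g.St} (h : g.Loc s) (X : Finset g.P) : s.car X ∈ g.el X :=
  Subalgebra.add_mem _ (Subalgebra.sum_mem _ fun x hx => (mem_filter.1 hx).2 ▸ h.v x)
    (Subalgebra.sum_mem _ fun k hk => Subalgebra.smul_mem _ ((mem_filter.1 hk).2 ▸ bE_el k) _)

theorem Loc.H {s : g.St} (h : g.Loc s) (X : Finset g.P) : s.H X ∈ g.el X :=
  Subalgebra.add_mem _ (h.K X) (h.car X)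

theorem Loc.intg {s : g.St} (h : g.Loc s) (ℓ ℓ' : ℕ) (U : Finset g.P) :
    g.intg ℓ ℓ' s U ∈ g.el U := Cl_mem g.pos h.H U

theorem Loc.rem {s : g.St} (h : g.Loc s) (ℓ ℓ' : ℕ) (U : Finset g.P) : g.rem ℓ ℓ' s U ∈ g.el U :=
  Subalgebra.sub_mem _ (Subalgebra.sub_mem _ (h.intg ℓ ℓ' U) (noF_el (h.intg ℓ ℓ' U))) (h.car U)

theorem subset_tgt (ℓ : ℕ) (U : Finset g.P) : U ⊆ g.tgt ℓ U := by
  unfold tgt
  split_ifs
  · exact subset_plus U
  · exact Subset.rfl

theorem xtr_el (j ℓ ℓ' : ℕ) (U : Finset g.P) (F : g.E) :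
    g.xtr j ℓ ℓ' U F ∈ g.el (g.tgt ℓ U) := by
  classical
  refine Subalgebra.add_mem _ ?_ (Subalgebra.sum_mem _ fun k hk => Subalgebra.smul_mem _ ?_ _)
  · split_ifs with h
    · rw [tgt, if_pos h.1]
      exact Subalgebra.smul_mem _ (Subalgebra.sum_mem _ fun x hx =>
        el_mono (star_subset_plus hx) (Ext_el x F)) _
    · exact Subalgebra.zero_mem _
  · have h := (mem_filter.1 hk).2
    rw [tgt, if_pos h.1.1]
    exact el_mono (star_subset_plus h.2.1) (bE_el k)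

theorem Loc.step {s : g.St} (h : g.Loc s) (j ℓ ℓ' : ℕ) (d : ℝ × ℝ) :
    g.Loc (g.step j ℓ ℓ' d s) where
  K _ := Subalgebra.sum_mem _ fun U hU => (mem_filter.1 hU).2 ▸ Subalgebra.sub_mem _
    (el_mono (subset_tgt ℓ U) (h.rem ℓ ℓ' U)) (xtr_el j ℓ ℓ' U _)
  v x := Subalgebra.add_mem _ (Subalgebra.add_mem _ (Subalgebra.add_mem _ (h.v x) (Ext_el x _))
    (Subalgebra.smul_mem _ (O1_el x) _)) (Subalgebra.smul_mem _ (O2_el x) _)

theorem subset_ball {ℓ : ℕ} {U : Finset g.P} {x : g.P} (hx : x ∈ U) (h : stein U ≤ ℓ) :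
    U ⊆ ball x ℓ := fun _ hy => mem_ball.2 ((tdist_le_stein hy hx).trans h)

open Classical in
theorem Loc.out {s : g.St} (h : g.Loc s) (ℓ ℓ' : ℕ) (x : g.P) :
    g.out ℓ ℓ' s x ∈ g.el (ball x ℓ) :=
  Subalgebra.sum_mem _ fun U hU => Subalgebra.smul_mem _
    (el_mono (subset_ball (mem_filter.1 hU).2.1 (mem_filter.1 hU).2.2.1) (h.rem ℓ ℓ' U)) _

end Geo

end Vale.Agent.P144Z
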