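import Vale.Agent.P144Z.R6.Init

/-!
The point symmetries of the lattice and their action on the fields.
-/

namespace Vale.Agent.P144Z.R6

open Finset Matrix

/-- The four steps. -/
def stz (a : Fin 4) : ℤ × ℤ := ![(1, 0), (0, 1), (-1, 0), (0, -1)] a

/-- The orientation of a step. -/
def sg (a : Fin 4) : ℝ := ![1, 1, -1, -1] a

/-- The positive step in direction `i`. -/
def dr (i : Fin 2) : Fin 4 := if i = 0 then 0 else 1

/-- The edge of a step in the plane. -/
def undz (v : ℤ × ℤ) (a : Fin 4) : (ℤ × ℤ) × Fin 2 :=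
  ![(v, 0), (v, 1), (v - uz 0, 0), (v - uz 1, 1)] a

/-- A point symmetry: action on the half-edges, the signs, the zero modes, the directions and the
spins. -/
structure Sy where
  π : Equiv.Perm (Fin 4)
  σ : Fin 4 → ℝ
  o : ℝ
  R : Fin 2 → Fin 2 → ℝ
  Q : Fin 2 → Fin 2 → ℝ
  T : ℤ × ℤ ≃+ ℤ × ℤ
  t : ℤ × ℤ
  sσ : IsSign σ
  so : o = 1 ∨ o = -1
  opp : ∀ a, π (a + 2) = π a + 2
  stp : ∀ a, T (stz a) = stz (π a)
  sA : ∀ a b, sA (π a) (π b) = o * (σ a * σ b * sA a b)
  sg : ∀ a, sg (π a) = o * (σ a * σ (a + 2) * sg a)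
  crd : ∀ v i, (crd (T v) i : ℝ) = ∑ i', Q i i' * crd v i'
  crd' : ∀ v i', (P144Z.crd v i' : ℝ) = ∑ i, Q i i' * P144Z.crd (T v) i
  kv : ∀ a c, σ c * kv a (π c) = ∑ a', R a a' * kv a' c
  kv' : ∀ a' c, σ c * P144Z.kv a' c = ∑ a, R a a' * P144Z.kv a (π c)
  mv : ∀ b i c, σ c * mv b i (π c) = ∑ b', ∑ i', R b b' * Q i i' * mv b' i' c
  det : o * (R 0 0 * R 1 1 - R 0 1 * R 1 0) = 1
  kt : ∀ a b i, Geo.kt a b i = ∑ a', ∑ b', ∑ i', o * (R a a' * R b b' * Q i i') * Geo.kt a' b' i'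
  kt' : ∀ a' b' i', Geo.kt a' b' i' =
    ∑ a, ∑ b, ∑ i, o * (R a a' * R b b' * Q i i') * Geo.kt a b i
  pot : ∀ V, P144.IsPotential V → ∀ B : Finset (ℤ × ℤ), V (B.image T) = V B
  box : ∀ (v : ℤ × ℤ) (r : ℤ), |(T v).1| ≤ r ∧ |(T v).2| ≤ r ↔ |v.1| ≤ r ∧ |v.2| ≤ r
  hull : ∀ B : Finset (ℤ × ℤ), hull (B.image T) = (hull B).image fun v => T v - t
  spin : ∀ (B : Finset (ℤ × ℤ)) n,
    spinFn (B.image T) n = spinFn B fun e => n (undz (T e.1 - t) (π (dr e.2)))

theorem undz_dr (v : ℤ × ℤ) (i : Fin 2) : undz v (dr i) = (v, i) := by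
  fin_cases i <;> rfl

theorem mem_hull {B : Finset (ℤ × ℤ)} {v : ℤ × ℤ} : v ∈ hull B ↔ ∃ a ∈ B, ∃ b ∈ B,
    (min a.1 b.1 ≤ v.1 ∧ v.1 ≤ max a.1 b.1 + 1) ∧ min a.2 b.2 ≤ v.2 ∧ v.2 ≤ max a.2 b.2 + 1 := by
  simp only [hull, mem_biUnion, mem_product, mem_Icc, Prod.exists]
  constructor
  · rintro ⟨a1, a2, b1, b2, ⟨h1, h2⟩, h⟩
    exact ⟨a1, a2, h1, b1, b2, h2, h⟩
  · rintro ⟨a1, a2, h1, b1, b2, h2, h⟩
    exact ⟨a1, a2, b1, b2, ⟨h1, h2⟩, h⟩

theorem spin_of (T : ℤ × ℤ ≃+ ℤ × ℤ) (B : Finset (ℤ × ℤ)) (n m : (ℤ × ℤ) × Fin 2 → Bool)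
    (h : (∀ a b, pHV n (T a) (T b) = pHV m a b) ∨ ∀ a b, pHV n (T a) (T b) = pHV m b a) :
    spinFn (B.image T) n = spinFn B m := by
  have hi : Set.InjOn T B := T.injective.injOn
  unfold spinFn
  rw [card_image_of_injOn hi, sum_image hi]
  congr 1
  refine sum_congr rfl fun a _ => ?_
  rw [prod_image hi, prod_image hi]
  rcases h with h | h
  · simp only [h]
  · simp only [h, add_comm]

theorem prod_flip (a b : ℤ) (f : ℤ → ℝ) :
    ∏ i ∈ Ico (min (-a) (-b)) (max (-a) (-b)), f i = ∏ i ∈ Ico (min a b) (max a b), f (-i - 1) := by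
  refine prod_nbij' (fun i => -i - 1) (fun i => -i - 1) (fun i hi => ?_) (fun i hi => ?_)
    (fun i _ => by ring) (fun i _ => by ring) fun i _ => by congr 1; ring
  all_goals
    simp only [mem_Ico] at hi ⊢
    omega

/-- The identity. -/
noncomputable def syId : Sy where
  π := 1
  σ _ := 1
  o := 1
  R a b := if a = b then 1 else 0
  Q a b := if a = b then 1 else 0
  T := AddEquiv.refl _
  t := 0
  sσ _ := Or.inl rfl
  so := Or.inl rfl
  opp _ := rfl
  stp _ := rfl
  sA := by simp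
  sg := by simp
  crd := by simp
  crd' := by simp
  kv := by simp
  kv' := by simp
  mv b i c := by fin_cases b <;> fin_cases i <;> simp
  det := by simp
  kt a b i := by fin_cases a <;> fin_cases b <;> fin_cases i <;> simp
  kt' a b i := by fin_cases a <;> fin_cases b <;> fin_cases i <;> simp
  pot V _ B := by simp
  box := by simp
  hull := by simp
  spin := by simp [undz_dr]

/-- The rotation of the plane. -/
def rotZ : ℤ × ℤ ≃+ ℤ × ℤ where
  toFun v := (-v.2, v.1)
  invFun v := (v.2, -v.1)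
  left_inv v := by simp
  right_inv v := by simp
  map_add' u v := by simp [add_comm]

/-- The reflection of the plane. -/
def refZ : ℤ × ℤ ≃+ ℤ × ℤ where
  toFun v := (v.1, -v.2)
  invFun v := (v.1, -v.2)
  left_inv v := by simp
  right_inv v := by simp
  map_add' u v := by simp [add_comm]

theorem rotZ_apply (v : ℤ × ℤ) : rotZ v = (-v.2, v.1) := rfl

theorem refZ_apply (v : ℤ × ℤ) : refZ v = (v.1, -v.2) := rfl

theorem s2 : √2 * √2 = (2 : ℝ) := Real.mul_self_sqrt (by norm_num)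

/-- The rotation. -/
noncomputable def syRot : Sy where
  π := Equiv.addRight 1
  σ := ![1, 1, 1, -1]
  o := 1
  R := ![![-(√2 / 2), -(√2 / 2)], ![√2 / 2, -(√2 / 2)]]
  Q := ![![0, -1], ![1, 0]]
  T := rotZ
  t := (-1, 0)
  sσ a := by fin_cases a <;> simp
  so := Or.inl rfl
  opp := by decide
  stp := by decide
  sA a b := by fin_cases a <;> fin_cases b <;> simp [sA]
  sg a := by fin_cases a <;> simp [sg]
  crd v i := by fin_cases i <;> simp [crd, rotZ_apply]
  crd' v i := by fin_cases i <;> simp [crd, rotZ_apply]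
  kv a c := by
    fin_cases a <;> fin_cases c <;> simp [kv, Fin.sum_univ_two] <;> linarith [s2]
  kv' a c := by
    fin_cases a <;> fin_cases c <;> simp [kv, Fin.sum_univ_two] <;> linarith [s2]
  mv b i c := by
    have s3 : √2 * √2 * √2 = 2 * √2 := by rw [s2]
    fin_cases b <;> fin_cases i <;> fin_cases c <;> simp [mv, nv, Fin.sum_univ_two] <;>
      linarith [s2, s3]
  det := by simp; linarith [s2]
  kt a b i := by
    fin_cases a <;> fin_cases b <;> fin_cases i <;> simp [Geo.kt, Fin.sum_univ_two] <;>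
      linarith [s2]
  kt' a b i := by
    fin_cases a <;> fin_cases b <;> fin_cases i <;> simp [Geo.kt, Fin.sum_univ_two] <;>
      linarith [s2]
  pot _ h B := h.rotate B
  box v r := by simp [rotZ_apply, and_comm]
  hull B := by
    ext v
    simp only [mem_hull, mem_image, exists_exists_and_eq_and, rotZ_apply]
    constructor
    · rintro ⟨a, ha, b, hb, h⟩
      exact ⟨(v.2, 1 - v.1), ⟨a, ha, b, hb, by simp only at h ⊢; omega⟩, by ext <;> simp⟩
    · rintro ⟨u, ⟨a, ha, b, hb, h⟩, rfl⟩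
      exact ⟨a, ha, b, hb, by simp only [Prod.fst_sub, Prod.snd_sub]; omega⟩
  spin B n := by
    refine spin_of _ _ _ _ (Or.inr fun a b => ?_)
    simp only [pHV, rotZ_apply, bond]
    rw [prod_flip, mul_comm, min_comm a.1, max_comm a.1, min_comm a.2, max_comm a.2]
    congr 1 <;> refine prod_congr rfl fun i _ => congrArg sgn (congrArg n ?_)
    · simp [undz, dr, uz]
    · simp [undz, dr, uz]

/-- The reflection. -/
noncomputable def syRef : Sy where
  π := Equiv.swap 1 3
  σ := ![1, -1, -1, -1]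
  o := -1
  R := ![![1, 0], ![0, -1]]
  Q := ![![1, 0], ![0, -1]]
  T := refZ
  t := (0, -1)
  sσ a := by fin_cases a <;> simp
  so := Or.inr rfl
  opp := by decide
  stp := by decide
  sA a b := by fin_cases a <;> fin_cases b <;> simp [sA, Equiv.swap_apply_def]
  sg a := by fin_cases a <;> simp [sg, Equiv.swap_apply_def]
  crd v i := by fin_cases i <;> simp [crd, refZ_apply]
  crd' v i := by fin_cases i <;> simp [crd, refZ_apply]
  kv a c := by
    fin_cases a <;> fin_cases c <;> simp [kv, Fin.sum_univ_two, Equiv.swap_apply_def] <;> norm_num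
  kv' a c := by
    fin_cases a <;> fin_cases c <;> simp [kv, Fin.sum_univ_two, Equiv.swap_apply_def] <;> norm_num
  mv b i c := by
    fin_cases b <;> fin_cases i <;> fin_cases c <;>
      simp [mv, nv, Fin.sum_univ_two, Equiv.swap_apply_def] <;> ring
  det := by simp
  kt a b i := by
    fin_cases a <;> fin_cases b <;> fin_cases i <;> simp [Geo.kt, Fin.sum_univ_two]
  kt' a b i := by
    fin_cases a <;> fin_cases b <;> fin_cases i <;> simp [Geo.kt, Fin.sum_univ_two]
  pot _ h B := h.reflect B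
  box v r := by simp [refZ_apply]
  hull B := by
    ext v
    simp only [mem_hull, mem_image, exists_exists_and_eq_and, refZ_apply]
    constructor
    · rintro ⟨a, ha, b, hb, h⟩
      exact ⟨(v.1, 1 - v.2), ⟨a, ha, b, hb, by simp only at h ⊢; omega⟩, by ext <;> simp⟩
    · rintro ⟨u, ⟨a, ha, b, hb, h⟩, rfl⟩
      exact ⟨a, ha, b, hb, by simp only [Prod.fst_sub, Prod.snd_sub]; omega⟩
  spin B n := by
    refine spin_of _ _ _ _ (Or.inl fun a b => ?_)
    simp only [pHV, refZ_apply, bond]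
    rw [prod_flip]
    congr 1 <;> refine prod_congr rfl fun i _ => congrArg sgn (congrArg n ?_)
    · simp [undz, dr, uz]
    · simp [undz, dr, uz, Equiv.swap_apply_def]

end Vale.Agent.P144Z.R6
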