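import Vale.Agent.P144Z.R6.Tr

/-!
The symmetries of the bulk flow.
-/

namespace Vale.Agent.P144Z

open Finset Matrix R6

set_option linter.unusedSectionVars false

namespace R6

theorem kt_of_inv (c : Fin 2 → Fin 2 → Fin 2 → ℝ)
    (h1 : ∀ a b i, c a b i = ∑ a', ∑ b', ∑ i',
      syRot.o * (syRot.R a a' * syRot.R b b' * syRot.Q i i') * c a' b' i')
    (h2 : ∀ a b i, c a b i = ∑ a', ∑ b', ∑ i',
      syRef.o * (syRef.R a a' * syRef.R b b' * syRef.Q i i') * c a' b' i') (a b i : Fin 2) :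
    c a b i = Geo.kt a b i * (∑ a, ∑ b, ∑ i, Geo.kt a b i * c a b i) / 4 := by
  have a1 := h2 0 0 0
  have a2 := h2 0 1 1
  have a3 := h2 1 0 1
  have a4 := h2 1 1 0
  have b1 := h1 0 0 1
  have b2 := h1 1 1 1
  have b3 := h1 0 1 0
  have b4 := h1 1 0 0
  have e : √2 / 2 * (√2 / 2) = 1 / 2 := by linarith [s2]
  simp [syRef, Fin.sum_univ_two] at a1 a2 a3 a4
  simp [syRot, Fin.sum_univ_two, e] at b1 b2 b3 b4
  fin_cases a <;> fin_cases b <;> fin_cases i <;> simp [Geo.kt, Fin.sum_univ_two] <;> linarith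

theorem Ext_of_kt {g : Geo} {x : g.P} {F : g.E} (h : ∀ a b i, g.cK x (Ev.val F) a b i =
    Geo.kt a b i * (∑ a, ∑ b, ∑ i, Geo.kt a b i * g.cK x (Ev.val F) a b i) / 4) :
    g.Ext x F = g.nu x F • g.O1 x + g.ze x F • g.O2 x := by
  have h4 : tc ≠ 0 := by
    have : (1 : ℝ) < √2 := Real.one_lt_sqrt_two
    rw [tc]
    linarith
  rw [Geo.Ext, add_eq_left]
  refine sum_eq_zero fun a _ => sum_eq_zero fun b _ => sum_eq_zero fun i _ => ?_
  rw [Geo.ze, mul_div_cancel₀ _ h4, add_sub_cancel, ← h, sub_self, zero_smul]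

variable {L : ℕ} {q : Par}

/-- The collected terms of two bulk flows correspond. -/
theorem out_sym (hL : 8 ≤ L) (hq : q.Ok) (d : ℕ → ℝ × ℝ) (j : ℕ) (y : Sy) {M M' : ℕ} [NeZero M]
    [NeZero M'] (hR : 16 * (q.R + 1) ≤ M) (hR' : 16 * (q.R + 1) ≤ M')
    (hM : 16 * sc L (j + 1) ≤ M) (hM' : 16 * sc L (j + 1) ≤ M') (x : Tor M) (x' : Tor M') :
    ∃ m : FMap (geo0 M) (geo0 M'), m.Good ∧ m.y = y ∧ m.φ x = x' ∧ m.dep (sc L j + 1) x ∧
      (geo0 M').out (sc L j) (sc L (j + 1)) ((geo0 M').flow L q d j) x' =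
        m.Φ ((geo0 M).out (sc L j) (sc L (j + 1)) ((geo0 M).flow L q d j) x) := by
  have h8 := eight_le_sc (by omega : 1 ≤ L) j
  have h2 := two_sc_le (by omega : 2 ≤ L) j
  obtain ⟨m, h⟩ := exists_sym (g := geo0 M) (g' := geo0 M') (q := q) (c := x) (c' := x')
    (T := 2 * sc L (j + 1)) y rfl rfl (ok_geo0 M).src (ok_geo0 M').src hq.pot
    (show _ ≤ M by omega) (show _ ≤ M' by omega) (show _ ≤ M by omega) (show _ ≤ M' by omega)
    (by omega) (srcs_none _ _ _ _)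
  have e : m.φ x = x' := h.hφ ▸ bφ_self y x x'
  have hd : ∀ n ≤ 2 * sc L (j + 1), m.dep n x := fun n hn =>
    (h.dep _ _).2 (((congrArg (· + n) (tdist_self x)).trans (zero_add n)).le.trans hn)
  refine ⟨m, h.good, h.hy, e, hd _ (by omega), ?_⟩
  rw [← e]
  exact (h.flow (L := L) (by omega) d j (by simp)).out' (by omega) (hd _ le_rfl)

theorem exists_inc (hL : 8 ≤ L) (hq : q.Ok) (d : ℕ → ℝ × ℝ) (j : ℕ) :
    ∃ inc : ℝ × ℝ, ∀ (M : ℕ) [NeZero M], 16 * (q.R + 1) ≤ M → 16 * sc L (j + 1) ≤ M → ∀ x,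
      (geo0 M).Ext x ((geo0 M).out (sc L j) (sc L (j + 1)) ((geo0 M).flow L q d j) x) =
        inc.1 • (geo0 M).O1 x + inc.2 • (geo0 M).O2 x := by
  obtain ⟨N, hN, hN'⟩ : ∃ N, 16 * (q.R + 1) ≤ N ∧ 16 * sc L (j + 1) ≤ N :=
    ⟨max _ _, le_max_left _ _, le_max_right _ _⟩
  have : NeZero N := ⟨by omega⟩
  have hF := (Geo.loc_flow (ok_geo0 N).src L q d j).out (sc L j) (sc L (j + 1)) (0 : Tor N)
  have h0 := fun y => out_sym hL hq d j y hN hN hN' hN' 0 0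
  have h1 := fun (M : ℕ) [NeZero M] hM hM' (x : Tor M) => out_sym hL hq d j syId hN hM hN' hM' 0 x
  generalize (geo0 N).out (sc L j) (sc L (j + 1)) ((geo0 N).flow L q d j) (0 : Tor N) = F
    at hF h0 h1
  have h2 : ∀ (y : Sy) a b i, (geo0 N).cK (0 : Tor N) (Ev.val F) a b i = ∑ a', ∑ b', ∑ i',
      y.o * (y.R a a' * y.R b b' * y.Q i i') * (geo0 N).cK (0 : Tor N) (Ev.val F) a' b' i' := by
    intro y a b i
    obtain ⟨m, h, rfl, e, hd, eF⟩ := h0 y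
    rw [← h.cK hd (mem_evLoc.1 hF), ← FMap.val_Φ, ← eF, e]
  have h3 := Ext_of_kt (kt_of_inv _ (h2 syRot) (h2 syRef))
  refine ⟨((geo0 N).nu (0 : Tor N) F, (geo0 N).ze (0 : Tor N) F), fun M _ hM hM' x => ?_⟩
  obtain ⟨m, h, -, rfl, hd, eF⟩ := h1 M hM hM' x
  rw [eF, h.Ext hd hF, FMap.Φ_O1 (Iso.le hd (by omega)), FMap.Φ_O2 (Iso.le hd (by omega)),
    ← map_smul, ← map_smul, ← map_add, h3]

theorem ok_enSrc {M : ℕ} (y : Tor M) (i : Fin 2) : (enSrc y i).Ok where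
  zero := by simp [enSrc]
  dep n n' h := congrArg sgn (h ((0, 0), i) (by simp [enSrc]) (by simp [enSrc]))
  bd n := by
    simp only [enSrc, sgn]
    split_ifs <;> simp
  en _ := ⟨rfl, rfl⟩

end R6

namespace Geo

/-- Symmetry of the bulk flow. -/
theorem ag_sym (L : ℕ) (hL : 8 ≤ L) (q : Par) (hq : q.Ok) (d : ℕ → ℝ × ℝ) (j : ℕ) :
    ∃ c inc : ℝ × ℝ, ∀ (M : ℕ) [NeZero M], 16 * (q.R + 1) ≤ M →
      (16 * sc L j ≤ M → ∀ x, ((geo0 M).flow L q d j).v x =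
        c.1 • (geo0 M).O1 x + c.2 • (geo0 M).O2 x) ∧
      (16 * sc L (j + 1) ≤ M → ∀ x, (geo0 M).Ext x ((geo0 M).out (sc L j) (sc L (j + 1))
        ((geo0 M).flow L q d j) x) = inc.1 • (geo0 M).O1 x + inc.2 • (geo0 M).O2 x) := by
  obtain ⟨inc, h⟩ := exists_inc hL hq d j
  suffices h' : ∃ c : ℝ × ℝ, ∀ (M : ℕ) [NeZero M], 16 * (q.R + 1) ≤ M → 16 * sc L j ≤ M → ∀ x,
      ((geo0 M).flow L q d j).v x = c.1 • (geo0 M).O1 x + c.2 • (geo0 M).O2 x from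
    h'.imp fun c hc => ⟨inc, fun M _ hM => ⟨hc M hM, h M hM⟩⟩
  clear h inc
  induction j with
  | zero => exact ⟨(q.Z * (q.x - tc), q.Z - 1), fun _ _ _ _ _ => rfl⟩
  | succ j ih =>
    obtain ⟨c, hc⟩ := ih
    obtain ⟨inc, h⟩ := exists_inc hL hq d j
    refine ⟨c + inc + d j, fun M _ hM hM' x => ?_⟩
    have h2 := two_sc_le (by omega : 2 ≤ L) j
    simp only [flow, step]
    rw [hc M hM (by omega), h M hM hM']
    simp only [Prod.fst_add, Prod.snd_add]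
    module

variable {L : ℕ} {q : Par}

theorem ag_dir (hL : 8 ≤ L) (hq : q.Ok) (M : ℕ) [NeZero M] (hR : 16 * (q.R + 1) ≤ M) (j J : ℕ)
    (hM : 16 * sc L j ≤ M) (y : Tor M) :
    ((geo1 M 1 (enSrc y 1) J).flow L q 0 j).z () = ((geo1 M 1 (enSrc y 0) J).flow L q 0 j).z () := by
  have h8 := eight_le_sc (by omega : 1 ≤ L) j
  have hr : 4 * (2 * sc L j) + 1 ≤ M := by omega
  obtain ⟨m, h⟩ := exists_sym (g := geo1 M 1 (enSrc y 0) J) (g' := geo1 M 1 (enSrc y 1) J) (q := q)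
    (c := y) (c' := y) (T := 2 * sc L j) (κ := some) syRot rfl rfl (fun _ => ok_enSrc y 0)
    (fun _ => ok_enSrc y 1) hq.pot (show _ ≤ M by omega) (show _ ≤ M by omega) hr hr (by omega)
    { pos := fun _ _ _ => ⟨(tdist_self y).le.trans (Nat.zero_le _), (bφ_self syRot y y).symm⟩
      kinj := fun _ _ _ _ _ => rfl
      surj := fun k => ⟨k, rfl⟩
      on := fun _ _ _ => rfl
      dir := fun _ _ _ => rfl
      sm := fun _ _ _ v hv => by
        rcases mem_insert.1 hv with rfl | hv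
        · simp [Sm]
        · exact mem_singleton.1 hv ▸ sm_stz hr hr (by omega) 0
      Y := fun _ _ _ => by
        change ({(0, 0), uz 1} : Finset (ℤ × ℤ)) = image rotZ {(0, 0), uz 0}
        decide
      O := fun _ _ _ _ => rfl }
  have k1 : m.κ () = some () := h.hκ ▸ rfl
  have h1 := (h.flow (L := L) (by omega) 0 j fun _ _ _ _ _ => Iff.rfl).z () () k1
    ((h.dep _ _).2 ((congrArg (· + _) (tdist_self y)).trans (zero_add _)).le)
  rwa [show h.good.agree.s () = 1 from h.ini.s1 k1, one_mul] at h1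

end Geo

end Vale.Agent.P144Z
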