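import Vale.Agent.P144Z.R6.Inst

/-!
The local quantities of the flow only depend on the fluxes and on the source nearby.
-/

namespace Vale.Agent.P144Z

open Finset Matrix R6

set_option linter.unusedSectionVars false

namespace R6

variable {g g' : Geo} {L : ℕ} {q : Par} {c : g.P} {c' : g'.P} {T : ℕ}

theorem Id.In {y : Sy} {κ : g.K → Option g'.K} {m : FMap g g'} (h : Id q y c c' T κ m) {n : ℕ}
    {U : Finset g.P} {x : g.P} (hx : x ∈ U) (hU : tdist x c + stein U + n ≤ T) : m.In n U := by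
  intro u hu
  have h1 := tdist_le_stein hu hx
  have h2 := tdist_triangle u x c
  exact (h.dep _ _).2 (by omega)

theorem Id.cs {y : Sy} {κ : g.K → Option g'.K} {m : FMap g g'} (h : Id q y c c' T κ m)
    (hL : 2 ≤ L) (j : ℕ) (hJ : ∀ i < j, ∀ k k', κ k = some k' → (i < g'.J ↔ i < g.J))
    {U : Finset g.P} (hU : m.In (sc L j + 3) U) :
    g'.cs L q j (U.image m.φ) = m.Φ (g.cs L q j U) := by
  cases j with
  | zero => exact (congrArg g'.noF ((h.ini.ini h.good).W0 (hU.le (Nat.zero_le _)))).trans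
              (m.Φ_noF _)
  | succ j =>
    exact (h.ini.ini h.good).cst hL
      (fun i hi k k' e _ => hJ i (by omega) k k' (h.hκ ▸ e)) hU

theorem Id.flow {y : Sy} {κ : g.K → Option g'.K} {m : FMap g g'} (h : Id q y c c' T κ m)
    (hL : 2 ≤ L) (d : ℕ → ℝ × ℝ) (j : ℕ)
    (hJ : ∀ i < j, ∀ k k', κ k = some k' → (i < g'.J ↔ i < g.J)) :
    h.good.agree.Rel (2 * sc L j) (g.flow L q d j) (g'.flow L q d j) :=
  (h.ini.ini h.good).flow hL d j fun i hi k k' e _ => hJ i hi k k' (h.hκ ▸ e)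

theorem match_self (hm : Geo.Match g g' c c' T) : Geo.Match g' g' c' c' T :=
  ⟨hm.le', hm.le', fun f _ => by rw [shf_self]⟩

theorem image_shf_self {M : ℕ} [NeZero M] (c : Tor M) (U : Finset (Tor M)) :
    U.image (bφ syId c c) = U :=
  (image_congr fun x _ => shf_self c x).trans image_id

instance (M : ℕ) [NeZero M] (A : Gauge M) : IsEmpty (geoA M A).K := inferInstanceAs (IsEmpty Empty)

instance (M : ℕ) [NeZero M] : IsEmpty (geo0 M).K := inferInstanceAs (IsEmpty Empty)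

theorem ok_geoA {M : ℕ} [NeZero M] {A : Gauge M} (h : IsSign A) : (geoA M A).Ok :=
  ⟨h, fun k => isEmptyElim k⟩

theorem ok_geo0 (M : ℕ) [NeZero M] : (geo0 M).Ok := ⟨fun _ => Or.inl rfl, fun k => isEmptyElim k⟩

/-- The distance to the centre and the size are preserved. -/
theorem shf_le {x : g.P} {U : Finset g.P} (hm : Geo.Match g g' c c' T) (hT : 1 ≤ T) (hx : x ∈ U)
    (hU : tdist x c + stein U ≤ T) :
    tdist (shf c c' x) c' = tdist x c ∧ stein (U.image (shf c c')) = stein U := by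
  let a := ballIso syId c c' hm.le hm.le' hT
  refine ⟨?_, a.stein_image hx hU le_rfl⟩
  have := a.iso (x := x) (y := c) (show _ + 0 ≤ T by omega)
    (show _ + 0 ≤ T by rw [tdist_self]; omega)
  rwa [show a.φ c = c' from bφ_self syId c c'] at this

open Classical in
/-- Only the source `k` is kept. -/
noncomputable def keep (k : g.K) : g.K → Option Unit := fun k₂ => if k₂ = k then some () else none

theorem keep_eq {k k₂ : g.K} {u : Unit} (h : keep k k₂ = some u) : k₂ = k := by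
  by_contra h1
  simp [keep, h1] at h

theorem keep_self (k : g.K) : keep k k = some () := if_pos rfl

theorem srcs_keep {k : g.K} {k' : g'.K} {j : ℕ} (hk : Geo.MatchS g g' c c' k k' j)
    (hY : ∀ v ∈ (g.src k).Y, Sm g.M g'.M v) (hy : tdist (g.src k).y c ≤ T) :
    Srcs (g' := geo1 g'.M g'.A (g'.src k') g'.J) syId c c' T (keep k) where
  pos _ _ e := keep_eq e ▸ ⟨hy, hk.y⟩
  kinj _ _ _ e e' := (keep_eq e).trans (keep_eq e').symm
  surj _ := ⟨k, keep_self k⟩
  on _ _ e := keep_eq e ▸ hk.on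
  dir _ _ e := keep_eq e ▸ congrArg dr hk.dir
  sm _ _ e := keep_eq e ▸ hY
  Y _ _ e := keep_eq e ▸ hk.Y.trans image_id.symm
  O _ _ e n := keep_eq e ▸ (congrFun hk.O n).trans
    (congrArg _ (funext fun e => congrArg n (undz_dr e.1 e.2).symm))

theorem matchS_self (k' : g'.K) (j : ℕ) : Geo.MatchS g' g' c' c' k' k' j :=
  ⟨(shf_self _ _).symm, rfl, rfl, rfl, rfl, fun _ _ => Iff.rfl⟩

/-- Both geometries are identified with the geometry with one source. -/
theorem exists_keep (hg : g.Ok) (hg' : g'.Ok) (hq : q.Ok) (hR : 16 * (q.R + 1) ≤ g.M)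
    (hR' : 16 * (q.R + 1) ≤ g'.M) (hm : Geo.Match g g' c c' T) (hT : 1 ≤ T) {j : ℕ} {k : g.K}
    {k' : g'.K} (hk : Geo.MatchS g g' c c' k k' j) (hY : ∀ v ∈ (g.src k).Y, Sm g.M g'.M v)
    (hy : tdist (g.src k).y c ≤ T) :
    ∃ m, Id (g' := geo1 g'.M g'.A (g'.src k') g'.J) q syId c c' T (keep k) m :=
  (exists_tr (g' := geo1 g'.M g'.A (g'.src k') g'.J) hg ⟨hg'.sign, fun _ => hg'.src k'⟩ hq.pot
    (by omega) (show _ ≤ g'.M by omega) ⟨hm.le, hm.le', hm.fl⟩ hT (srcs_keep hk hY hy)).imp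
    fun _ h => h.1

theorem Sm.right {M M' : ℕ} {v : ℤ × ℤ} (h : Sm M M' v) : Sm M' M' v := by
  rw [Sm] at h ⊢
  omega

end R6

namespace Geo

variable {g g' : Geo} {L : ℕ} {q : Par} {c : g.P} {c' : g'.P} {T : ℕ}

/-- The scalar constants only depend on the fluxes nearby. -/
theorem ag_cs (hL : 8 ≤ L) (hg : g.Ok) (hg' : g'.Ok) (hq : q.Ok) (hR : 16 * (q.R + 1) ≤ g.M)
    (hR' : 16 * (q.R + 1) ≤ g'.M) (hm : Match g g' c c' T) (j : ℕ) {U : Finset g.P} {x : g.P}
    (hx : x ∈ U) (hU : tdist x c + 2 * stein U + 3 * sc L j ≤ T) :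
    aug (Ev.val (g'.cs L q j (U.image (shf c c')))) = aug (Ev.val (g.cs L q j U)) := by
  have h8 := eight_le_sc (by omega : 1 ≤ L) j
  obtain ⟨m, h, -⟩ := exists_tr (g' := geoA g'.M g'.A) hg (ok_geoA hg'.sign) hq.pot (by omega)
    (show _ ≤ g'.M by omega) ⟨hm.le, hm.le', hm.fl⟩ (by omega) (srcs_none _ _ _ _)
  obtain ⟨m', h', -⟩ := exists_tr (g' := geoA g'.M g'.A) hg' (ok_geoA hg'.sign) hq.pot (by omega)
    (show _ ≤ g'.M by omega) ⟨hm.le', hm.le', (match_self hm).fl⟩ (by omega) (srcs_none _ _ _ _)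
  obtain ⟨e1, e2⟩ := shf_le hm (by omega) hx (by omega)
  have h1 := h.cs (L := L) (by omega) j (by simp) (h.In hx (by omega))
  have h2 := h'.cs (L := L) (by omega) j (by simp) (h'.In (mem_image_of_mem (shf c c') hx) (by omega))
  have e3 : (U.image (shf c c')).image m'.φ = U.image m.φ := by
    rw [h'.hφ, h.hφ]
    exact image_shf_self _ _
  rw [e3] at h2
  rw [← m.aug_Φ, ← m'.aug_Φ, ← h1, ← h2]

/-- The same for the coefficient of a source. -/
theorem ag_cs_src (hL : 8 ≤ L) (hg : g.Ok) (hg' : g'.Ok) (hq : q.Ok) (hR : 16 * (q.R + 1) ≤ g.M)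
    (hR' : 16 * (q.R + 1) ≤ g'.M) (hm : Match g g' c c' T) (j : ℕ) {k : g.K} {k' : g'.K}
    (hk : MatchS g g' c c' k k' j) (hY : ∀ v ∈ (g.src k).Y, 4 * zd v 0 < min g.M g'.M)
    {U : Finset g.P} {x : g.P} (hx : x ∈ U) (hy : (g.src k).y ∈ U)
    (hU : tdist x c + 2 * stein U + 3 * sc L j ≤ T) :
    aug (g'.db k' (Ev.val (g'.cs L q j (U.image (shf c c'))))) =
      aug (g.db k (Ev.val (g.cs L q j U))) := by
  have h8 := eight_le_sc (by omega : 1 ≤ L) j
  have hY' : ∀ v ∈ (g.src k).Y, Sm g.M g'.M v := fun v hv => by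
    have := hY v hv
    simp only [zd, Prod.fst_zero, Prod.snd_zero, sub_zero] at this
    rw [Sm]
    omega
  have hy' : tdist (g.src k).y c + stein U ≤ T := by
    have h1 := tdist_le_stein hy hx
    have h2 := tdist_triangle (g.src k).y x c
    omega
  obtain ⟨e1, e2⟩ := shf_le hm (by omega) hx (by omega)
  obtain ⟨m, h⟩ := exists_keep hg hg' hq hR hR' hm (by omega) hk hY' (by omega)
  obtain ⟨m', h'⟩ := exists_keep hg' hg' hq hR' hR' (match_self hm) (by omega) (matchS_self k' j)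
    (fun v hv => (hY' v (hk.Y ▸ hv)).right)
    (by rw [hk.y, (shf_le hm (by omega) hy hy').1]; omega)
  have h1 := h.cs (L := L) (by omega) j (fun i hi _ _ _ => (hk.J i hi).symm) (h.In hx (by omega))
  have h2 := h'.cs (L := L) (by omega) j (fun _ _ _ _ _ => Iff.rfl)
    (h'.In (mem_image_of_mem (shf c c') hx) (by omega))
  have e3 : (U.image (shf c c')).image m'.φ = U.image m.φ := by
    rw [h'.hφ, h.hφ]
    exact image_shf_self _ _
  rw [e3] at h2
  have k1 : m.κ k = some () := h.hκ ▸ keep_self k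
  have k2 : m'.κ k' = some () := h'.hκ ▸ keep_self k'
  have h3 := FMap.aug_db_Φ k1 (g.cs L q j U)
  have h4 := FMap.aug_db_Φ k2 (g'.cs L q j (U.image (shf c c')))
  rw [h.ini.s1 k1, one_mul, ← h1] at h3
  rw [h'.ini.s1 k2, one_mul, ← h2] at h4
  exact h4.symm.trans h3

theorem ag_z (hL : 8 ≤ L) (hg : g.Ok) (hg' : g'.Ok) (hq : q.Ok) (hR : 16 * (q.R + 1) ≤ g.M)
    (hR' : 16 * (q.R + 1) ≤ g'.M) (hm : Match g g' c c' T) (j : ℕ) {k : g.K} {k' : g'.K}
    (hk : MatchS g g' c c' k k' j) (hon : (g.src k).on = true)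
    (hU : tdist (g.src k).y c + 3 * sc L j ≤ T) :
    (g'.flow L q 0 j).z k' = (g.flow L q 0 j).z k := by
  have h8 := eight_le_sc (by omega : 1 ≤ L) j
  have hY' : ∀ v ∈ (g.src k).Y, Sm g.M g'.M v := fun v hv => by
    rw [((hg.src k).en hon).1, mem_insert, mem_singleton] at hv
    rcases hv with rfl | rfl
    · simp [Sm]
    · have := sm_stz hm.le hm.le' (by omega) (dr (g.src k).dir)
      revert this
      generalize (g.src k).dir = i
      fin_cases i <;> exact id
  have e1 := (shf_le hm (by omega) (mem_singleton_self (g.src k).y)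
    (by rw [stein_singleton]; omega)).1
  obtain ⟨m, h⟩ := exists_keep hg hg' hq hR hR' hm (by omega) hk hY' (by omega)
  obtain ⟨m', h'⟩ := exists_keep hg' hg' hq hR' hR' (match_self hm) (by omega) (matchS_self k' j)
    (fun v hv => (hY' v (hk.Y ▸ hv)).right) (by rw [hk.y]; omega)
  have k1 : m.κ k = some () := h.hκ ▸ keep_self k
  have k2 : m'.κ k' = some () := h'.hκ ▸ keep_self k'
  have h1 := (h.flow (L := L) (by omega) 0 j fun i hi _ _ _ => (hk.J i hi).symm).z k () k1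
    ((h.dep _ _).2 (by omega))
  have h2 := (h'.flow (L := L) (by omega) 0 j fun _ _ _ _ _ => Iff.rfl).z k' () k2
    ((h'.dep _ _).2 (by rw [hk.y]; omega))
  rw [show h.good.agree.s k = 1 from h.ini.s1 k1, one_mul] at h1
  rw [show h'.good.agree.s k' = 1 from h'.ini.s1 k2, one_mul] at h2
  exact h2.symm.trans h1

theorem ag_sig (hL : 8 ≤ L) (hg : g.Ok) (hg' : g'.Ok) (hq : q.Ok) (hR : 16 * (q.R + 1) ≤ g.M)
    (hR' : 16 * (q.R + 1) ≤ g'.M) (j T₀ : ℕ) (hm : Match g g' c c' T)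
    (hT : 4 * T₀ + 6 * sc L j ≤ T) : g'.sig L q j c' T₀ = g.sig L q j c T₀ := by
  have h8 := eight_le_sc (by omega : 1 ≤ L) j
  let a := ballIso syId c c' hm.le hm.le' (by omega)
  have hc : a.dep T c := by
    change _ + _ ≤ _
    rw [tdist_self, zero_add]
  have hW : a.In T₀ (ball c (3 * T₀ + 3 * sc L j)) := Iso.in_ball hc (by omega)
  have k : ∀ {M : ℕ} [NeZero M] (f : Tor M) (U : Finset (Tor M)),
      (stein U ≤ T₀ ∧ ∃ x ∈ U, tdist f x ≤ 2 * stein U + 3 * sc L j) →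
      U ⊆ ball f (3 * T₀ + 3 * sc L j) := fun f U ⟨h1, x, hx, h2⟩ u hu => by
    have h3 := tdist_le_stein hu hx
    have h4 := tdist_triangle u x f
    rw [tdist_comm] at h2
    exact mem_ball.2 (by omega)
  rw [sig, sig, Iso.sum_sets (hW.le (Nat.zero_le _)) (k c) (fun U hU => by
    rw [Iso.image_ball (Iso.le hc (by omega)), show a.φ c = c' from bφ_self syId c c']
    exact k c' U hU) fun U hU => ?_]
  · refine sum_congr rfl fun U hU => ?_
    obtain ⟨h1, x, hx, h2⟩ := (mem_filter.1 hU).2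
    rw [tdist_comm] at h2
    exact ag_cs hL hg hg' hq hR hR' hm j hx (by omega)
  · rw [Iso.small_iff (hW.sub hU), exists_mem_image]
    refine and_congr_right fun h1 => exists_congr fun x => and_congr_right fun hx => ?_
    have h2 := mem_ball.1 (hU hx)
    obtain ⟨e1, e2⟩ := shf_le hm (by omega) hx (by omega)
    rw [tdist_comm c, tdist_comm c', ← e1, ← e2]
    rfl

end Geo

end Vale.Agent.P144Z
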